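import Crest.Agent.N228.N3.Close
import Crest.Agent.N228.N3.NkLim_Mg
import Crest.Agent.N228.N3.Tree_Mg
import Crest.Agent.N228.O.App
import Crest.Agent.N228.G.Defs
import Crest.Agent.N228.Nk.Two
import Crest.Agent.N222.B.Defs2
import Crest.Agent.N222.F.Lip
import Crest.Agent.N228.G.Boost1
import Crest.Agent.N222.B.Riesz
import Crest.Agent.N222.B.Sheet
import Crest.Agent.N228.W.All
import Crest.Agent.N228.Gr.Ims
import Crest.Agent.N222.B.Weight
import Crest.Agent.N228.Nk.Prof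
import Crest.Agent.N222.F.Bump

-- ▼ part N228/N3/PieceX
section

/-!
# Row 228, dimension three: a piece on an open manifold (helper66)
-/

set_option autoImplicit false
open MeasureTheory Set Filter Topology Function
open scoped ContDiff
open Crest.Agent.N222 Crest.Agent.N222.Imm

noncomputable section

namespace Crest.Agent.N228.N3

/-- **PIECE on an open manifold** -/
theorem pieceX (h1 : CloseInjStmt) (h2 : PieceStmt) : PieceXStmt := by
  intro d ι _ _ X _ _ _ _ _ M hd hi hM ψ hψ hK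
  obtain ⟨Y, _, _, _, _, _, _, N, e, c, F, hN, hKe, hx, hF, hE⟩ :=
    h1 d ι X M hi _ _ (1 / 10) continuous_const hM hK (by norm_num)
  obtain ⟨χ, hχ, hs, h01, hχ1⟩ := M.exists_bump hK e.open_source hKe
  have hχ1 : ∀ p, 0 ≤ ψ p → ∀ᶠ q in 𝓝 p, χ q = 1 := eventually_nhdsSet_iff_forall.1 hχ1
  let P : (X → ℝ) → Y → ℝ := fun f => push e fun q => χ q * f q
  have hP : ∀ f p, 0 ≤ ψ p → P f (e p) = f p := fun f p hp =>
    (push_ev (hKe hp) (hχ1 p hp) f).self_of_nhds
  have hpos : ∀ y, 0 < P ψ y → ∃ p, 0 < ψ p ∧ e p = y := fun y hy => by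
    obtain ⟨p, -, h3, h4⟩ := push_ne hy.ne'
    exact ⟨p, pos_of_mul_pos_right (hy.trans_eq h4) (h01 p).1, h3⟩
  have hL : ∀ f, Lip1 M {p | 0 < ψ p} f → Lip1 N {y | 0 < P ψ y} (P f) := fun f hf =>
    ⟨sm_push hx hχ hs hf.1, fun y hy => by
      obtain ⟨p, hp, rfl⟩ := hpos y hy
      exact (gam_push hx (hKe hp.le) (hχ1 p hp.le) f f).trans_le (hf.2 p hp)⟩
  obtain ⟨A, hA, hA12, hAs, hAo⟩ := h2 d (Option ι) Y N F hN hF hd (P ψ) (hL ψ hψ) fun y hy => by
    obtain ⟨p, hp, rfl⟩ := hpos y hy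
    linarith [hE p (hKe hp.le)]
  have h12 : ∀ {p}, 12 ≤ ψ p → 0 ≤ ψ p := fun hp => by linarith
  have h30 : ∀ {p}, 30 < ψ p → 0 ≤ ψ p := fun hp => by linarith
  refine ⟨{p | 12 ≤ ψ p} ∩ e ⁻¹' A,
    (e.continuousOn.mono fun p hp => hKe (h12 hp)).preimage_isClosed_of_isClosed
    (isClosed_le continuous_const hψ.1.continuous) hA, inter_subset_left, fun f hf =>
    (hAs _ (hL f hf)).pull (fun p hp => hKe (h12 hp.1)) (fun p hp => hp.2)
      fun p hp => hP f p (h12 hp.1), fun f hf D hD h => ?_⟩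
  refine (hAo _ (hL f hf) D hD (h.pull (e := e.symm) (fun y hy => ?_) (fun y hy => ?_)
    fun y hy => ?_)).pull (fun p hp => hKe (h30 hp.1)) (fun p hp => ⟨?_, fun h => hp.2 ⟨?_, h⟩⟩)
      fun p hp => hP f p (h30 hp.1)
  · obtain ⟨p, hp, rfl⟩ := hpos y hy.1
    exact e.map_source (hKe hp.le)
  · obtain ⟨p, hp, rfl⟩ := hpos y hy.1
    rw [e.left_inv (hKe hp.le)]
    exact ⟨hp, (hP ψ p hp.le).ge.trans hy.2⟩
  · obtain ⟨p, hp, rfl⟩ := hpos y hy.1
    rw [e.left_inv (hKe hp.le), hP f p hp.le]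
  · exact lt_of_lt_of_eq hp.1 (hP ψ p (h30 hp.1)).symm
  · have h3 : 30 < ψ p := hp.1
    change 12 ≤ ψ p
    linarith

end Crest.Agent.N228.N3

end
end

-- ▼ part N228/N3/All
section

/-! # Row 228, dimension three: the unconditional statement -/

set_option autoImplicit false

namespace Crest.Agent.N228.N3

theorem neck' : NeckStmt := neck prof nkLim

theorem n3 : N3Stmt :=
  n3_of app (rad (rneck closeInj neck'))
    (pieceX closeInj
      (piece fg (cuts (cut circ neck') (cl sep) smin) dist neck' (tree sep) (cl sep) smin))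
    (cl sep) (cover sep) smin

end Crest.Agent.N228.N3
end

-- ▼ part N228/G/Split
section

/-!
# Row 228, block G: SPLIT (the truncated profile, no double counting)
-/

set_option autoImplicit false
open MeasureTheory Set Filter Topology Function Metric Real
open scoped ContDiff

noncomputable section

namespace Crest.Agent.N228.G

namespace Sp

/-! ### the profile -/

/-- a smooth clamp of the identity -/
theorem clamp {θ0 : ℝ} (h0 : 0 < θ0) (h1 : θ0 < π / 2) : ∃ ψ χ : ℝ → ℝ, ContDiff ℝ ∞ ψ ∧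
    (∀ θ, HasDerivAt ψ (χ θ) θ) ∧ (∀ θ, |χ θ| ≤ 1) ∧ (∀ θ, π / 2 ≤ |θ| → χ θ = 0) ∧
    (∀ θ, |ψ θ| ≤ |θ|) ∧ (∀ θ, |ψ θ| < π / 2) ∧ (∀ θ, π / 2 ≤ θ → ψ θ = ψ (π / 2)) ∧
    θ0 ≤ ψ (π / 2) ∧ ∀ θ, ψ (-θ) = -ψ θ := by
  set θ2 := (θ0 + π / 2) / 2 with hθ2
  have h2 : θ0 < θ2 := by linarith
  have h3 : θ2 < π / 2 := by linarith
  let χ : ContDiffBump (0 : ℝ) := ⟨θ0, θ2, h0, h2⟩
  have hc : Continuous χ := χ.continuous
  have hi : ∀ x y, IntervalIntegrable χ volume x y := fun x y => hc.intervalIntegrable x y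
  set ψ : ℝ → ℝ := fun θ => ∫ x in (0 : ℝ)..θ, χ x with hψ
  have hd : ∀ θ, HasDerivAt ψ (χ θ) θ := fun θ => (hc.integral_hasStrictDerivAt 0 θ).hasDerivAt
  have hb : ∀ θ, |χ θ| ≤ 1 := fun θ => by rw [abs_of_nonneg χ.nonneg]; exact χ.le_one
  have hz : ∀ θ, θ2 ≤ |θ| → χ θ = 0 := fun θ h => χ.zero_of_le_dist (by simpa using h)
  have hle : ∀ θ, |ψ θ| ≤ |θ| := fun θ => by
    have := intervalIntegral.norm_integral_le_of_norm_le_const (a := 0) (b := θ) (C := 1)
      (f := fun x => χ x) fun x _ => hb x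
    simpa using this
  have hodd : ∀ θ, ψ (-θ) = -ψ θ := fun θ => by
    have e := intervalIntegral.integral_comp_neg (a := 0) (b := -θ) (f := fun x => χ x)
    simp only [χ.neg, neg_neg, neg_zero] at e
    simp only [hψ]
    rw [e, intervalIntegral.integral_symm]
  have hsub : ∀ x y, ψ y = ψ x + ∫ t in x..y, χ t := fun x y =>
    (intervalIntegral.integral_add_adjacent_intervals (hi 0 x) (hi x y)).symm
  have hcst : ∀ θ, θ2 ≤ θ → ψ θ = ψ θ2 := fun θ h => by
    rw [hsub θ2 θ, intervalIntegral.integral_congr (g := fun _ => (0 : ℝ)) fun x hx => ?_]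
    · simp
    · rw [uIcc_of_le h] at hx
      exact hz x (hx.1.trans (le_abs_self x))
  have hle2 : ∀ θ, 0 ≤ θ → |ψ θ| < π / 2 := fun θ h => by
    rcases le_total θ θ2 with h' | h'
    · have := hle θ
      rw [abs_of_nonneg h] at this
      linarith
    · have := hle θ2
      rw [abs_of_nonneg (by linarith : 0 ≤ θ2)] at this
      rw [hcst θ h']
      linarith
  refine ⟨ψ, χ, ?_, hd, hb, fun θ h => hz θ (h3.le.trans h), hle, fun θ => ?_, fun θ h => ?_, ?_,
    hodd⟩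
  · rw [contDiff_infty_iff_deriv]
    refine ⟨fun θ => (hd θ).differentiableAt, ?_⟩
    rw [show deriv ψ = χ from funext fun θ => (hd θ).deriv]
    exact χ.contDiff
  · rcases le_total 0 θ with h | h
    · exact hle2 θ h
    · have := hle2 (-θ) (by linarith)
      rwa [hodd, abs_neg] at this
  · rw [hcst θ (h3.le.trans h), hcst _ h3.le]
  · have e : ψ θ0 = θ0 := by
      simp only [hψ]
      rw [intervalIntegral.integral_congr (g := fun _ => (1 : ℝ)) fun x hx => ?_]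
      · simp
      · rw [uIcc_of_le h0.le] at hx
        refine χ.one_of_mem_closedBall ?_
        rw [mem_closedBall, dist_zero_right, Real.norm_eq_abs, abs_of_nonneg hx.1]
        exact hx.2
    rw [hsub θ0, e]
    have := intervalIntegral.integral_nonneg (μ := volume) (f := fun x => χ x) h1.le
      fun x _ => χ.nonneg
    linarith

theorem key_ineq {s x c c' sn T β D : ℝ} (hs : 0 < s) (hx0 : 0 ≤ x) (hx : x ≤ 1) (hc : 0 ≤ c)
    (hcc : c ≤ c') (hc' : 0 < c') (hsn : sn ^ 2 ≤ 1) (hT : 1 + T ^ 2 = 1 / c' ^ 2)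
    (hD : D ≤ β * c + s / 8 * sn ^ 2) :
    2 * (s * x / c' ^ 2 * D) - (s * T) ^ 2 ≤ 4 / 3 * β ^ 2 + s ^ 2 := by
  set k1 := s * x / c' ^ 2 with hk1
  have hk0 : 0 ≤ k1 := by positivity
  have hk : k1 ≤ s * (1 / c' ^ 2) := by
    rw [hk1, mul_one_div]
    gcongr
    nlinarith
  have h1 : k1 * c ≤ s * (1 / c') := by
    calc k1 * c ≤ s * (1 / c' ^ 2) * c' := by gcongr
      _ = s * (1 / c') := by field_simp
  have h2 : (k1 * c) ^ 2 ≤ s ^ 2 * (1 / c' ^ 2) := by
    calc (k1 * c) ^ 2 ≤ (s * (1 / c')) ^ 2 := by gcongr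
      _ = _ := by field_simp
  have h3 : k1 * D ≤ k1 * (β * c + s / 8 * sn ^ 2) := mul_le_mul_of_nonneg_left hD hk0
  have h4 : k1 * (s * sn ^ 2) ≤ s * (1 / c' ^ 2) * (s * 1) := by gcongr
  have h5 : 2 * (β * (k1 * c)) ≤ 4 / 3 * β ^ 2 + 3 / 4 * (k1 * c) ^ 2 := by
    nlinarith [sq_nonneg (β - 3 / 4 * (k1 * c))]
  rw [← hT] at h2 h4
  nlinarith

/-- the profile `k t = √η tan (ψ (L t))` -/
theorem prof {η L : ℝ} (hη : 0 < η) (hL : 1 ≤ L) (K : ℝ) : ∃ k : ℝ → ℝ, ContDiff ℝ ∞ k ∧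
    (∀ t, π / 2 / L ≤ t → k t = k (π / 2 / L)) ∧ K ≤ k (π / 2 / L) ∧
    (∀ t, t ≤ -(π / 2 / L) → k t = k (-(π / 2 / L))) ∧ k (-(π / 2 / L)) ≤ -K ∧
    (∀ t, π / 2 ≤ |t| → deriv k t = 0) ∧
    ∀ t, |t| ≤ π / 2 → ∃ θ, |θ| ≤ π / 2 ∧ |θ - t| ≤ 2 * (L - 1) ∧ ∀ β d, L * d ≤ rate η β θ →
      2 * (|deriv k t| * d) - k t ^ 2 ≤ 4 / 3 * β ^ 2 + η := by
  set s := √η with hs
  have hs0 : 0 < s := Real.sqrt_pos.2 hη
  have hs2 : s ^ 2 = η := Real.sq_sqrt hη.le
  have hL0 : 0 < L := by linarith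
  have hK : 0 < (|K| + 1) / s := by positivity
  obtain ⟨ψ, χ, h1, h2, h3, h4, h5, h6, h7, h8, h9⟩ :=
    clamp (θ0 := arctan ((|K| + 1) / s)) (by simpa using arctan_strictMono hK)
      (arctan_lt_pi_div_two _)
  have hcos : ∀ θ, 0 < cos (ψ θ) := fun θ =>
    cos_pos_of_mem_Ioo ⟨(abs_lt.1 (h6 θ)).1, (abs_lt.1 (h6 θ)).2⟩
  set k : ℝ → ℝ := fun t => s * tan (ψ (L * t)) with hk
  have hd : ∀ t, HasDerivAt k (s * (1 / cos (ψ (L * t)) ^ 2 * (χ (L * t) * L))) t := fun t => by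
    have a1 : HasDerivAt (fun t => ψ (L * t)) (χ (L * t) * L) t := by
      have := (h2 (L * t)).comp t ((hasDerivAt_id t).const_mul L)
      rw [mul_one] at this
      exact this
    exact ((hasDerivAt_tan (hcos (L * t)).ne').comp t a1).const_mul s
  have hodd : ∀ t, k (-t) = -k t := fun t => by simp only [hk, mul_neg, h9, tan_neg]
  have hLa : L * (π / 2 / L) = π / 2 := by field_simp
  have hc1 : ∀ t, π / 2 / L ≤ t → k t = k (π / 2 / L) := fun t ht => by
    simp only [hk]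
    rw [hLa, h7]
    rw [← hLa]
    gcongr
  have hc2 : K ≤ k (π / 2 / L) := by
    simp only [hk]
    rw [hLa]
    have a1 : tan (arctan ((|K| + 1) / s)) ≤ tan (ψ (π / 2)) :=
      strictMonoOn_tan.monotoneOn ⟨neg_pi_div_two_lt_arctan _, arctan_lt_pi_div_two _⟩
        ⟨(abs_lt.1 (h6 _)).1, (abs_lt.1 (h6 _)).2⟩ h8
    rw [tan_arctan, div_le_iff₀ hs0] at a1
    linarith [le_abs_self K]
  have hz : ∀ t, π / 2 ≤ |L * t| → deriv k t = 0 := fun t ht => by
    rw [(hd t).deriv, h4 _ ht]; simp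
  have habs : ∀ t, |L * t| = L * |t| := fun t => by rw [abs_mul, abs_of_pos hL0]
  refine ⟨k, ?_, hc1, hc2, fun t ht => ?_, by rw [hodd]; linarith, fun t ht => hz t ?_,
    fun t ht => ?_⟩
  · refine contDiff_iff_contDiffAt.2 fun t => contDiffAt_const.mul ?_
    exact ContDiffAt.comp (g := tan) (f := fun t => ψ (L * t)) t
      (contDiffAt_tan.2 (hcos (L * t)).ne') (h1.comp (contDiff_const.mul contDiff_id)).contDiffAt
  · rw [hodd, ← hc1 (-t) (by linarith), hodd, neg_neg]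
  · rw [habs]; nlinarith [abs_nonneg t]
  · rcases le_total |L * t| (π / 2) with h | h
    · refine ⟨L * t, h, ?_, fun β d hd' => ?_⟩
      · rw [show L * t - t = (L - 1) * t by ring, abs_mul, abs_of_nonneg (by linarith)]
        nlinarith [pi_le_four]
      · have a1 : |deriv k t| * d = s * |χ (L * t)| / cos (ψ (L * t)) ^ 2 * (L * d) := by
          rw [(hd t).deriv]
          simp only [abs_mul, abs_of_pos hs0, abs_of_pos hL0]
          rw [abs_of_nonneg (by positivity : 0 ≤ 1 / cos (ψ (L * t)) ^ 2)]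
          ring
        have a2 : cos (L * t) ≤ cos (ψ (L * t)) := by
          rw [← cos_abs (L * t), ← cos_abs (ψ _)]
          exact cos_le_cos_of_nonneg_of_le_pi (abs_nonneg _) (by linarith [pi_pos]) (h5 _)
        rw [a1, ← hs2]
        refine key_ineq (sn := sin (L * t)) hs0 (abs_nonneg _) (h3 _)
          (cos_nonneg_of_mem_Icc (abs_le.1 h)) a2 (hcos _) (sin_sq_le_one _) ?_ hd'
        rw [one_div, ← inv_one_add_tan_sq (hcos _).ne', inv_inv]
    · refine ⟨t, ht, by simp; linarith, fun β d _ => ?_⟩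
      rw [hz t h]
      nlinarith [sq_nonneg β, sq_nonneg (k t)]

theorem rate_lip (η β x y : ℝ) : rate η β x ≤ rate η β y + (|β| + √η) * |x - y| := by
  have h1 : β * cos x - β * cos y ≤ |β| * |x - y| := by
    rw [← mul_sub]
    refine (le_abs_self _).trans ?_
    rw [abs_mul]
    exact mul_le_mul_of_nonneg_left (abs_cos_sub_cos_le x y) (abs_nonneg _)
  have h2 : sin x ^ 2 - sin y ^ 2 ≤ 2 * |x - y| := by
    rw [sq_sub_sq]
    refine (le_abs_self _).trans ?_
    rw [abs_mul]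
    have : |sin x + sin y| ≤ 2 := by
      linarith [abs_add_le (sin x) (sin y), abs_sin_le_one x, abs_sin_le_one y]
    exact mul_le_mul this (abs_sin_sub_sin_le x y) (abs_nonneg _) (by norm_num)
  have h3 := Real.sqrt_nonneg η
  have h4 := mul_le_mul_of_nonneg_left h2 h3
  have h5 := mul_nonneg h3 (abs_nonneg (x - y))
  unfold rate
  nlinarith

theorem rate_smul {η β x D l : ℝ} (h0 : 0 ≤ l) (h1 : l ≤ 1) (h : D ≤ rate η β x) :
    l * D ≤ rate η (l * β) x := by
  have h2 := mul_le_mul_of_nonneg_left h h0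
  have h3 : 0 ≤ √η / 8 * sin x ^ 2 := by positivity
  unfold rate at h2 ⊢
  nlinarith

/-- no double counting -/
theorem share {η β x γ g0 d1 d2 g : ℝ} (hγ : 0 < γ) (hg0 : 0 < g0) (hd1 : 0 ≤ d1) (hd2 : 0 ≤ d2)
    (hd2g : d2 ≤ g) (hd : d1 ^ 2 + d2 ^ 2 ≤ g ^ 2) (h : (1 + γ) * g + g0 / 2 < rate η β x) :
    ∃ β1 β2 : ℝ, (1 + γ) * d1 ≤ rate η β1 x ∧ (1 + γ) * d2 + g0 / 2 ≤ rate η β2 x ∧
      β1 ^ 2 + β2 ^ 2 ≤ β ^ 2 := by
  have hg : 0 ≤ g := hd2.trans hd2g
  have a3 : ((1 + γ) * d1) ^ 2 + ((1 + γ) * d2 + g0 / 2) ^ 2 ≤ ((1 + γ) * g + g0 / 2) ^ 2 := by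
    have b1 := mul_le_mul_of_nonneg_left hd (sq_nonneg (1 + γ))
    have b2 := mul_le_mul_of_nonneg_left hd2g (show 0 ≤ (1 + γ) * g0 by positivity)
    nlinarith
  have hD0 : 0 < (1 + γ) * g + g0 / 2 := by positivity
  have a1 : 0 ≤ (1 + γ) * d1 := by positivity
  have a2 : 0 ≤ (1 + γ) * d2 + g0 / 2 := by positivity
  generalize (1 + γ) * g + g0 / 2 = D at *
  generalize (1 + γ) * d1 = D1 at *
  generalize (1 + γ) * d2 + g0 / 2 = D2 at *
  have a4 : (D1 / D) ^ 2 + (D2 / D) ^ 2 ≤ 1 := by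
    rw [div_pow, div_pow, ← add_div, div_le_one (by positivity)]; exact a3
  have l1 : 0 ≤ D1 / D := by positivity
  have l2 : 0 ≤ D2 / D := by positivity
  have l1' : D1 / D ≤ 1 := by nlinarith [sq_nonneg (D2 / D)]
  have l2' : D2 / D ≤ 1 := by nlinarith [sq_nonneg (D1 / D)]
  have r1 := rate_smul l1 l1' h.le
  have r2 := rate_smul l2 l2' h.le
  rw [div_mul_cancel₀ _ hD0.ne'] at r1 r2
  refine ⟨_, _, r1, r2, ?_⟩
  have := mul_le_mul_of_nonneg_right a4 (sq_nonneg β)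
  rw [mul_pow, mul_pow]
  linarith

theorem abs_le_one_add {x B : ℝ} (h : x ^ 2 ≤ B) : |x| ≤ 1 + B := by
  nlinarith [sq_abs x, abs_nonneg x, sq_nonneg (|x| - 1)]

/-! ### room in the class -/

variable {C : Type} [Fintype C]

theorem mem_fin {φ : C → ℝ} {b : C} : b ∈ fin φ ↔ |φ b| ≤ π / 2 := by simp [fin]

theorem mono {m : ℕ} {η r r' : C → ℝ} {V V' : ℝ} {φ g g' : C → ℝ} (h : Good m η r V φ g)
    (hr : ∀ b, r' b ≤ r b) (hV : V ≤ V') (hg : ∀ b, g' b ≤ g b) : Good m η r' V' φ g' := by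
  rcases h with h | ⟨β, h1, h2⟩
  · exact Or.inl h
  · refine Or.inr ⟨β, fun b hb => (hg b).trans_lt (h1 b hb), lt_of_le_of_lt ?_ (h2.trans_le hV)⟩
    exact Finset.sum_le_sum fun b _ => by linarith [hr b]

theorem isOpen_good (m : ℕ) (η : C → ℝ) {r : C → ℝ} (hr : ∀ b, 0 ≤ r b) :
    IsOpen {z : ℝ × (C → ℝ) × (C → ℝ) | Good m η r z.1 z.2.1 z.2.2} := by
  refine isOpen_iff_mem_nhds.2 fun z hz => ?_
  have h1 : ∀ᶠ w in 𝓝 z, fin w.2.1 ⊆ fin z.2.1 := by
    have : ∀ b, ∀ᶠ w in 𝓝 z, |w.2.1 b| ≤ π / 2 → |z.2.1 b| ≤ π / 2 := fun b => by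
      by_cases hb : |z.2.1 b| ≤ π / 2
      · exact Eventually.of_forall fun _ _ => hb
      · have hc : Continuous fun w : ℝ × (C → ℝ) × (C → ℝ) => |w.2.1 b| := by fun_prop
        filter_upwards [hc.continuousAt.eventually (lt_mem_nhds (not_le.1 hb))] with w hw h
        exact absurd h (not_le.2 hw)
    filter_upwards [eventually_all.2 this] with w hw b hb
    exact mem_fin.2 (hw b (mem_fin.1 hb))
  rcases hz with h | ⟨β, h2, h3⟩
  · filter_upwards [h1] with w hw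
    exact Or.inl ((Nat.add_le_add_right (Finset.card_le_card hw) 2).trans h)
  · have h4 : ∀ᶠ w in 𝓝 z, ∀ b ∈ fin z.2.1, w.2.2 b < rate (η b) (β b) (w.2.1 b) := by
      refine (eventually_all_finset _).2 fun b hb => ?_
      have c1 : Continuous fun w : ℝ × (C → ℝ) × (C → ℝ) => w.2.2 b := by fun_prop
      have c2 : Continuous fun w : ℝ × (C → ℝ) × (C → ℝ) => rate (η b) (β b) (w.2.1 b) := by
        unfold rate; fun_prop
      exact c1.continuousAt.eventually_lt c2.continuousAt (h2 b hb)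
    filter_upwards [h1, h4, continuous_fst.continuousAt.eventually (lt_mem_nhds h3)]
      with w hw hw4 hw5
    refine Or.inr ⟨β, fun b hb => hw4 b (hw hb), lt_of_le_of_lt ?_ hw5⟩
    exact Finset.sum_le_sum_of_subset_of_nonneg hw fun b _ _ => by
      linarith [hr b, sq_nonneg (β b)]

theorem room {m : ℕ} {η r : C → ℝ} (hr : ∀ b, 0 ≤ r b) {𝒦 : Set (ℝ × (C → ℝ) × (C → ℝ))}
    (hK : IsCompact 𝒦) (h : ∀ z ∈ 𝒦, Good m η r z.1 z.2.1 z.2.2) : ∃ g0 > 0, ∀ z ∈ 𝒦,
    ∀ V φ g, z.1 - g0 ≤ V → (∀ b, |φ b - z.2.1 b| ≤ g0) → (∀ b, g b ≤ z.2.2 b + g0) →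
      Good m η r V φ g := by
  obtain ⟨δ, hδ, hs⟩ := hK.exists_cthickening_subset_open (isOpen_good m η hr) h
  refine ⟨δ, hδ, fun z hz V φ g h1 h2 h3 => ?_⟩
  have h4 : (z.1 - δ, φ, fun b => z.2.2 b + δ) ∈ cthickening δ 𝒦 := by
    refine mem_cthickening_of_dist_le _ z δ 𝒦 hz ?_
    simp only [Prod.dist_eq, max_le_iff]
    refine ⟨?_, (dist_pi_le_iff hδ.le).2 fun b => h2 b, (dist_pi_le_iff hδ.le).2 fun b => ?_⟩ <;>
      simp [abs_of_pos hδ]
  exact mono (hs h4) (fun _ => le_rfl) h1 h3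

variable [DecidableEq C]

/-- the reference state, in which `c` is finite -/
theorem ref {m : ℕ} {η r : C → ℝ} {W θ D : ℝ} {φ g : C → ℝ} {c : C} (hθ : |θ| ≤ π / 2)
    (h : Good (m + 1) η r W (update φ c θ) (update g c D)) :
    ((fin φ).erase c).card + 2 ≤ m ∨ ∃ β : C → ℝ, D < rate (η c) (β c) θ ∧
      (∀ b ∈ (fin φ).erase c, g b < rate (η b) (β b) (φ b)) ∧
      4 / 3 * β c ^ 2 + r c + ∑ b ∈ (fin φ).erase c, (4 / 3 * β b ^ 2 + r b) < W := by
  have e : fin (update φ c θ) = insert c ((fin φ).erase c) := by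
    ext b
    by_cases hb : b = c
    · subst hb; simp [mem_fin, hθ]
    · simp [mem_fin, hb]
  have hc : c ∉ (fin φ).erase c := Finset.notMem_erase c _
  rcases h with h | ⟨β, h1, h2⟩
  · left
    rw [Few, e, Finset.card_insert_of_notMem hc] at h
    omega
  · rw [e] at h1 h2
    rw [Finset.sum_insert hc] at h2
    refine Or.inr ⟨β, by simpa using h1 c (Finset.mem_insert_self _ _), fun b hb => ?_, h2⟩
    have := h1 b (Finset.mem_insert_of_mem hb)
    rwa [update_of_ne (Finset.ne_of_mem_erase hb), update_of_ne (Finset.ne_of_mem_erase hb)] at this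

theorem ok_update {η r : C → ℝ} {W e β2 : ℝ} {φ g β : C → ℝ} {c : C} (hr : ∀ b, 0 ≤ r b)
    (he : e ≤ r c) (h1 : ∀ b ∈ (fin φ).erase c, g b < rate (η b) (β b) (φ b))
    (h2 : g c < rate (η c) β2 (φ c))
    (h3 : 4 / 3 * β2 ^ 2 + (r c - e) + ∑ b ∈ (fin φ).erase c, (4 / 3 * β b ^ 2 + r b) < W) :
    Ok η (update r c (r c - e)) W φ g := by
  refine ⟨update β c β2, fun b hb => ?_, ?_⟩
  · by_cases hbc : b = c
    · subst hbc
      rwa [update_self]
    · rw [update_of_ne hbc]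
      exact h1 b (Finset.mem_erase.2 ⟨hbc, hb⟩)
  · have b1 : ∑ b ∈ fin φ, (4 / 3 * update β c β2 b ^ 2 + update r c (r c - e) b) ≤
        ∑ b ∈ insert c ((fin φ).erase c),
          (4 / 3 * update β c β2 b ^ 2 + update r c (r c - e) b) := by
      refine Finset.sum_le_sum_of_subset_of_nonneg (Finset.subset_insert_iff.2 subset_rfl)
        fun b _ _ => ?_
      by_cases hb : b = c
      · subst hb; simp only [update_self]; linarith [sq_nonneg β2]
      · simp only [update_of_ne hb]; linarith [hr b, sq_nonneg (β b)]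
    have b2 : ∑ b ∈ (fin φ).erase c, (4 / 3 * update β c β2 b ^ 2 + update r c (r c - e) b) =
        ∑ b ∈ (fin φ).erase c, (4 / 3 * β b ^ 2 + r b) :=
      Finset.sum_congr rfl fun b hb => by
        rw [update_of_ne (Finset.ne_of_mem_erase hb), update_of_ne (Finset.ne_of_mem_erase hb)]
    rw [Finset.sum_insert (Finset.notMem_erase c _), b2, update_self, update_self] at b1
    linarith

end Sp

open Sp in
theorem split : SplitStmt := by
  intro C _ _ m η r c 𝒦 hK hr hη hηr h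
  obtain ⟨g0, hg0, hroom⟩ := room hr hK fun z hz => (h z hz).2
  obtain ⟨B, hB⟩ := hK.isBounded.exists_norm_le
  set N := 4 * (2 + 3 * (1 + |B| + √(η c)) + |B|) with hN
  have hs := Real.sqrt_nonneg (η c)
  have hB0 := abs_nonneg B
  have hN0 : 0 < N := by positivity
  set γ := g0 / N with hγ
  have hγ0 : 0 < γ := by positivity
  have hγN : γ * N = g0 := by rw [hγ]; field_simp
  have hγ1 : γ * (1 + 3 * (1 + |B| + √(η c))) < g0 / 2 := by
    rw [← hγN, hN]; nlinarith [mul_nonneg hγ0.le hs, mul_nonneg hγ0.le hB0]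
  have hγ2 : γ * |B| ≤ g0 / 2 := by
    rw [← hγN, hN]; nlinarith [mul_nonneg hγ0.le hs, mul_nonneg hγ0.le hB0]
  have hγ3 : 2 * γ ≤ g0 := by
    rw [← hγN, hN]; nlinarith [mul_nonneg hγ0.le hs, mul_nonneg hγ0.le hB0]
  have hL : 1 ≤ 1 + γ := by linarith
  refine ⟨γ, π / 2 / (1 + γ), hγ0, by positivity, div_lt_self (by positivity) (by linarith),
    fun K => ?_⟩
  obtain ⟨k, k1, k2, k3, k4, k5, k6, k7⟩ := prof hη hL K
  refine ⟨k, k1, k2, k3, k4, k5, ?_⟩
  rintro ⟨V, φ, g⟩ hz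
  have hg : 0 ≤ g c := (h _ hz).1
  have hVB : V ≤ |B| :=
    (le_abs_self V).trans ((norm_fst_le (V, φ, g)).trans ((hB _ hz).trans (le_abs_self B)))
  have hgB : γ * g c ≤ g0 / 2 := by
    have : g c ≤ |B| := (le_abs_self _).trans ((norm_le_pi_norm g c).trans
      ((norm_snd_le (φ, g)).trans ((norm_snd_le (V, φ, g)).trans
        ((hB _ hz).trans (le_abs_self B)))))
    nlinarith
  have hroom' := hroom _ hz
  -- the reference state
  have href : ∀ (θ D : ℝ) (φ' g' : C → ℝ), |θ - φ c| ≤ 2 * (1 + γ - 1) → D ≤ g c + g0 →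
      (∀ b, b ≠ c → |φ' b - φ b| ≤ γ ∧ g' b ≤ g b + γ) →
      Good (m + 1) η r (V - γ) (update φ' c θ) (update g' c D) := by
    intro θ D φ' g' h1 h2 h3
    refine hroom' _ _ _ (by simp only; linarith) (fun b => ?_) fun b => ?_
    · by_cases hb : b = c
      · subst hb; simp only [update_self]; linarith
      · simp only [update_of_ne hb]; linarith [(h3 b hb).1]
    · by_cases hb : b = c
      · subst hb; simp only [update_self]; exact h2
      · simp only [update_of_ne hb]; linarith [(h3 b hb).2]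
  have hnn : ∀ (β : C → ℝ) (S : Finset C), 0 ≤ ∑ b ∈ S, (4 / 3 * β b ^ 2 + r b) := fun β S =>
    Finset.sum_nonneg fun b _ => by linarith [hr b, sq_nonneg (β b)]
  constructor
  · intro d1 d2 V' φ' g' hd1 hd2 hd hV hφ hg1 hg2
    simp only at hd hV hφ hg1 hg2
    have hd2g : d2 ≤ g c := by nlinarith [sq_nonneg d1]
    rcases le_total (π / 2) |φ c| with ht | ht
    · rw [k6 _ ht, abs_zero, zero_mul, mul_zero, sub_zero, min_eq_left (sq_nonneg _)] at hV
      refine mono (hroom' V' φ' g' (by simp only; linarith) (fun b => by linarith [hφ b])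
        fun b => ?_) (fun b => ?_) le_rfl fun _ => le_rfl
      · by_cases hb : b = c
        · subst hb; simp only; linarith
        · simp only; linarith [hg1 b hb]
      · by_cases hb : b = c
        · subst hb; simp only [update_self]; linarith
        · rw [update_of_ne hb]
    obtain ⟨θ, t1, t2, t3⟩ := k7 _ ht
    rcases ref t1 (href θ ((1 + γ) * g c + g0 / 2) φ' g' t2 (by linarith)
      fun b hb => ⟨hφ b, hg1 b hb⟩) with h1 | ⟨β, h1, h2, h3⟩
    · left
      have := Finset.pred_card_le_card_erase (s := fin φ') (a := c)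
      unfold Few
      omega
    obtain ⟨β1, β2, r1, r2, a5⟩ := share (η := η c) hγ0 hg0 hd1 hd2 hd2g hd h1
    have r3 := t3 _ _ r1
    have a6 : V - γ - (4 / 3 * β1 ^ 2 + η c) ≤ V' := by
      have : -(4 / 3 * β1 ^ 2 + η c) ≤ min 0 (k (φ c) ^ 2 - 2 * (|deriv k (φ c)| * d1)) :=
        le_min (by linarith [sq_nonneg β1]) (by linarith)
      linarith
    have a7 : |β2| ≤ 1 + |B| := by
      refine abs_le_one_add ?_
      linarith [hnn β ((fin φ').erase c), hr c, sq_nonneg β1, sq_nonneg (β c)]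
    refine Or.inr (ok_update (β2 := β2) hr hηr h2 ?_ (by linarith))
    have b1 := rate_lip (η c) β2 θ (φ' c)
    have b2 : |θ - φ' c| ≤ 3 * γ := by
      have := abs_sub_le θ (φ c) (φ' c)
      rw [abs_sub_comm (φ c)] at this
      linarith [hφ c]
    have b3 : (|β2| + √(η c)) * |θ - φ' c| ≤ (1 + |B| + √(η c)) * (3 * γ) := by gcongr
    have b4 := mul_nonneg hγ0.le hd2
    linarith
  · intro ht V' φ' g' hV hφ hc
    simp only at ht hV hφ
    obtain ⟨θ, t1, t2, t3⟩ := k7 _ ht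
    have e : (fin φ').erase c = fin φ' :=
      Finset.erase_eq_of_notMem fun hm => absurd (mem_fin.1 hm) (not_le.2 hc)
    rcases ref t1 (href θ ((1 + γ) * g c) φ' g' t2 (by linarith) hφ) with h1 | ⟨β, h1, h2, h3⟩
    · rw [e] at h1
      exact Or.inl h1
    · rw [e] at h2 h3
      have := t3 _ _ h1.le
      exact Or.inr ⟨β, h2, by linarith⟩

end Crest.Agent.N228.G

end
end

-- ▼ part N228/G/Loc
section

/-! # Row 228, block G (helper16): the solvers SOL and LOC -/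

set_option autoImplicit false
open MeasureTheory Set Filter Topology Function Real
open scoped ContDiff
open Crest.Agent.N222 Crest.Agent.N222.Imm Crest.Agent.N228.J Crest.Agent.N228.Nk

noncomputable section

namespace Crest.Agent.N228.G

theorem loc : LocStmt := by
  intro d ι _ _ X _ _ _ _ _ _ M F hi hF φ a δ hφ h0 h1 hδ
  have hw : 0 < π / 2 - a := sub_pos.2 h1
  have e1 : ∀ t, 2 / (π / 2 - a) * (π / 2 - t) < 2 ↔ a < t := fun t => by
    rw [div_mul_eq_mul_div, div_lt_iff₀ hw]; constructor <;> intro <;> linarith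
  have e2 : ∀ t, π / 2 ≤ t → 2 / (π / 2 - a) * (π / 2 - t) ≤ 0 := fun t h =>
    mul_nonpos_of_nonneg_of_nonpos (by positivity) (sub_nonpos.2 h)
  obtain ⟨K, H⟩ := two (θp := fun p => 2 / (π / 2 - a) * (π / 2 - φ p))
    (θm := fun p => 2 / (π / 2 - a) * (π / 2 - -φ p)) hi hF
    ((sm_const _).mul ((sm_const _).sub hφ)) ((sm_const _).mul ((sm_const _).sub hφ.neg))
    (fun p h => le_of_not_gt fun h' => by linarith [(e1 _).1 h, (e1 _).1 h']) hδ
  refine ⟨K, fun k hk k1 k2 k3 k4 => ?_⟩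
  obtain ⟨Λ, 𝒰, u, τ, s, hs, hl, hb, hc⟩ := H (fun p => k (φ p)) _ _ (hφ.comp hk) k2 k4
    (fun p h => k1 _ ((e1 _).1 h).le) fun p h => k3 _ (le_neg.1 ((e1 _).1 h).le)
  refine ⟨Λ, 𝒰, u, τ, s, ⟨hs, fun j p => (hl j p).trans (gn_le_gain _ _ _ _),
    fun T => (hb T).mono fun j h p => ⟨fun h' => (h p).1 ((e2 _ h').trans zero_le_one),
      fun h' => (h p).2 ((e2 _ (le_neg.1 h')).trans zero_le_one)⟩⟩, fun j => ?_⟩
  obtain ⟨lo, hi, h, -⟩ := hc j
  exact ⟨hi, lo, fun p => ⟨fun h' => (h p).1 ((e2 _ h').trans_lt (by norm_num)),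
    fun h' => (h p).2 ((e2 _ (le_neg.1 h')).trans_lt (by norm_num))⟩⟩

theorem sol : SolStmt := by
  intro d ι _ _ X _ _ _ _ _ _ M F hi hF φ a δ hφ h0 h1 hδ
  obtain ⟨r0, C, h0, hC, hbar⟩ := sol_bar hi hF
  obtain ⟨r1, h1, l1⟩ := exists_rad hi hφ (sub_pos.2 h1)
  set r := min r0 r1
  have hr : 0 < r := by positivity
  refine ⟨C / r + 1, fun k hk k1 k2 => ?_⟩
  set h : X → ℝ := fun p => k (φ p)
  have hh : M.Sm h := hφ.comp hk
  obtain ⟨B, hB, bB⟩ := exists_bound (hh.continuous.prodMk (hh.gam hh).continuous)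
  simp only [Prod.norm_mk, max_le_iff, Real.norm_eq_abs] at bB
  have hA : 0 < B / δ := by positivity
  obtain ⟨δ0, τ, hδ0, hτ, hτL⟩ := exists_par (σ := min (1 / 2) (δ / (2 * B))) hA (by positivity)
  choose v hv using fun j : ℕ => exists_Sol (Λ := ℝ) (q := fun _ _ => 1)
    (k := fun t p => min (2 * t) 1 * h p) (L := fun t => max (2 * t - 1) 0 * (j + δ0) - δ0) hF
    (JC.const isOpen_univ 1)
    ((JC.consts isOpen_univ (by fun_prop)).mul (JC.of_sm rfl isOpen_univ hh)) (fun _ _ => le_rfl)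
    (by fun_prop) (hτ j).1 (hτ j).2.1 δ0
  have hs : ∀ j, Sol M F (fun _ => 1) h (fun t => prof (B / δ) (τ j) δ0 (j, t)) (v j 1) := fun j => by
    have := ((hv j).2 1).1
    norm_num at this
    exact this
  have hσ : ∀ j : ℕ, τ j * (j + δ0) + B / δ * δ0 < 1 := fun j =>
    ((hτ j).2.2.trans (min_le_left _ _)).trans_lt (by norm_num)
  have out := fun (j : ℕ) t => prof_out (t := t) (hτ j).1.le (hτ j).2.1 hδ0 j.cast_nonneg (hσ j)
  have low : ∀ j, ∀ t ∈ Icc (0 : ℝ) 1, LowN M F h δ (v j t) := by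
    intro j t ht p
    have s := ((hv j).2 t).1
    rcases le_total (2 * t) 1 with h2 | h2
    · have := s.gn_stiff (p := p) hA (prof_stiff (hτ j).2.1 hδ0 (by
        rw [max_eq_right (by linarith), zero_mul, zero_sub, neg_add_cancel]; exact abs_nonneg _))
        (by rw [I.gam_ev (.of_forall fun _ => rfl)]; positivity)
      rw [min_eq_left h2, I.gam_comp_self hh (hasDerivAt_const_mul (2 * t)), one_mul] at this
      have h3 : (2 * t) ^ 2 * M.pre.gam h h p / (B / δ) ≤ δ := by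
        rw [div_le_iff₀ hA, mul_div_cancel₀ _ hδ.ne']
        exact (mul_le_of_le_one_left (gam_self_nonneg _ _) (pow_le_one₀ (by linarith [ht.1]) h2)).trans
          ((le_abs_self _).trans (bB p).2)
      linarith [min_le_left 0 (h p ^ 2 - 2 * |M.pre.dir (M.Xf (v j t)) h p|)]
    · simp only [min_eq_right h2, one_mul] at s
      refine s.low (σ := δ / (2 * B)) hA (by positivity) EventuallyEq.rfl
        ((prof_cases (hτ j).1.le (hτ j).2.1 hδ0 _ _).imp_right fun h =>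
          h.trans (le_trans ?_ ((hτ j).2.2.trans (min_le_right _ _)))) (bB p).1
        ((le_abs_self _).trans ((bB p).2.trans (mul_div_cancel₀ _ hδ.ne').ge))
        (le_of_eq (by field_simp))
      rw [sub_add_cancel]
      exact add_le_add_left (mul_le_mul_of_nonneg_left (mul_le_of_le_one_left (by positivity)
        (max_le (by linarith [ht.2]) zero_le_one)) (hτ j).1.le) _
  obtain ⟨Λ, 𝒰, b, h𝒰, hb, hw⟩ := exists_wseq (L := fun j => j) hs
    (fun j => deriv_prof_le (hτ j).1.le (hτ j).2.1 δ0 _) (fun j => (hτ j).1)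
    (fun j => j.cast_nonneg) (fun j t ht => prof_soft hδ0 ht) tendsto_natCast_atTop_atTop hτL
    (.of_forall fun _ _ _ => rfl)
  refine ⟨Λ, 𝒰, _, _, _, ⟨hw, fun j p => le_trans ?_ (gn_le_gain _ _ _ _), fun T => ?_⟩,
    fun j => ⟨v j, b j, (hv j).1, ((hv j).2 0).2 fun p => by norm_num, fun p => by ring,
      fun t ht p => (low j t ht p).trans (gn_le_gain _ _ _ _)⟩⟩
  · rw [gn_add_const, Xf_add_const]; exact low j 1 ⟨zero_le_one, le_rfl⟩ p
  · filter_upwards [h𝒰 (tendsto_natCast_atTop_atTop.eventually_ge_atTop (2 * T)),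
      h𝒰 (tendsto_natCast_atTop_atTop.eventually_ge_atTop T)] with j j1 j2 p
    refine ⟨fun hp => ?_, fun hp => ?_⟩
    · have := (hbar _ _ _ _ (hs j) r _ p hr (min_le_left _ _)).1 fun p' h' => k1 (φ p') (by
        linarith [(abs_lt.1 (l1 p p' (h'.trans_le (min_le_right _ _)))).1])
      linarith [(out j _).1 (by linarith), hb j]
    · have := (hbar _ _ _ _ (hs j) r _ p hr (min_le_left _ _)).2 fun p' h' => k2 (φ p') (by
        linarith [(abs_lt.1 (l1 p p' (h'.trans_le (min_le_right _ _)))).2])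
      linarith [(out j _).2 (by linarith), hb j]

end Crest.Agent.N228.G

end
end

-- ▼ part N228/Nk/Gen
section

/-!
# Row 228, necks (helper16): a generic small shift leaves few common zeros near a thin set
-/

set_option autoImplicit false
set_option linter.unusedSectionVars false
open MeasureTheory Set Filter Topology Function Metric
open scoped ContDiff ENNReal

noncomputable section

namespace Crest.Agent.N228.Nk

open Crest.Agent.N222

variable {d m : ℕ} {ι : Type} [Fintype ι] [DecidableEq ι] {X : Type} [TopologicalSpace X]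
  [MeasurableSpace X] {M : Imm d ι X}

/-- Lipschitz images of thin sets are null -/
theorem null {κ : Type} [Fintype κ] (hκ : m ≤ Fintype.card κ + 3) {B : Set X} (hB : M.Nets m B)
    {A : X → κ → ℝ} {L : ℝ} (hL : 0 < L) (hA : ∀ p q, ‖A p - A q‖ ≤ L * ‖M.x p - M.x q‖) :
    volume (A '' B) = 0 := by
  obtain ⟨C, hC⟩ := hB
  set k := Fintype.card κ with hk
  have h1 : ∀ r : ℝ, 0 < r → r ≤ 1 →
      volume (A '' B) ≤ ENNReal.ofReal (C * (2 * L) ^ k * r) := by
    intro r hr hr1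
    obtain ⟨s, -, hs, hc⟩ := hC r hr hr1
    have h2 : A '' B ⊆ ⋃ q ∈ s, closedBall (A q) (L * r) := by
      rintro _ ⟨p, hp, rfl⟩
      obtain ⟨q, hq, h⟩ := hc p hp
      refine mem_biUnion hq ?_
      rw [mem_closedBall, dist_eq_norm]
      exact (hA p q).trans (mul_le_mul_of_nonneg_left h hL.le)
    refine (measure_mono h2).trans ((measure_biUnion_finset_le _ _).trans ?_)
    simp only [Real.volume_pi_closedBall _ (by positivity : 0 ≤ L * r), Finset.sum_const,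
      nsmul_eq_mul, ← hk]
    rw [← ENNReal.ofReal_natCast, ← ENNReal.ofReal_mul (Nat.cast_nonneg _)]
    refine ENNReal.ofReal_le_ofReal ?_
    have h3 : (s.card : ℝ) * r ^ k ≤ C * r := by
      refine le_of_mul_le_mul_right ?_ (pow_pos hr 3)
      rw [mul_assoc, mul_assoc, ← pow_add, ← pow_succ']
      exact (mul_le_mul_of_nonneg_left (pow_le_pow_of_le_one hr.le hr1 hκ)
        (Nat.cast_nonneg _)).trans hs
    have h4 := mul_le_mul_of_nonneg_left h3 (by positivity : 0 ≤ (2 * L) ^ k)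
    calc (s.card : ℝ) * (2 * (L * r)) ^ k = (2 * L) ^ k * (s.card * r ^ k) := by
          rw [← mul_assoc 2, mul_pow]; ring
      _ ≤ _ := h4
      _ = _ := by ring
  have h5 : Tendsto (fun r : ℝ => ENNReal.ofReal (C * (2 * L) ^ k * r)) (𝓝[>] 0) (𝓝 0) := by
    have : Continuous fun r : ℝ => ENNReal.ofReal (C * (2 * L) ^ k * r) :=
      ENNReal.continuous_ofReal.comp (by fun_prop)
    simpa using (this.tendsto 0).mono_left nhdsWithin_le_nhds
  refine le_antisymm (ge_of_tendsto h5 ?_) zero_le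
  filter_upwards [Ioc_mem_nhdsGT zero_lt_one] with r hr using h1 r hr.1 hr.2

/-- **GEN**: after a small shift, at most `m - 4` of the functions are small near `B`. -/
theorem gen_multi [T2Space X] [CompactSpace X] (hM : Injective M.x) {B : Set X} (hB : IsClosed B)
    (hN : M.Nets m B) {C : Type} [Fintype C] {a : C → X → ℝ} (ha : ∀ c, M.Sm (a c)) {ε : ℝ}
    (hε : 0 < ε) : ∃ ξ : C → ℝ, (∀ c, |ξ c| ≤ ε) ∧ ∃ η t : ℝ, 0 < η ∧ 0 < t ∧
      ∀ p, ∀ q ∈ B, ‖M.x p - M.x q‖ ≤ t → ∀ I : Finset C, (∀ c ∈ I, |a c p + ξ c| ≤ η) →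
        I.card + 4 ≤ m := by
  classical
  let Z : Finset C → Set (C → ℝ) := fun I =>
    (fun (y : C → ℝ) (c : I) => y c) ⁻¹' ((fun p (c : I) => a c p) '' B)
  have hA : ∀ I : Finset C, M.Sm fun p (c : I) => a c p := fun I p =>
    contDiffOn_pi.2 fun c => ha c p
  have hZ : ∀ I : Finset C, m ≤ I.card + 3 → IsOpen (Z I)ᶜ ∧ Dense (Z I)ᶜ := fun I hI => by
    refine ⟨((hB.isCompact.image (hA I).continuous).isClosed.preimage (by fun_prop)).isOpen_compl,
      Metric.dense_iff.2 fun y r hr => ?_⟩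
    obtain ⟨L, hL, hl⟩ := (hA I).exists_lip hM
    have h0 := null (by simpa using hI) hN hL hl
    obtain ⟨z, hz, hzK⟩ := not_subset.1 fun h : ball (fun c : I => y c) r ⊆ _ =>
      (measure_ball_pos volume _ hr).ne' (measure_mono_null h h0)
    refine ⟨fun c => if h : c ∈ I then z ⟨c, h⟩ else y c, (dist_pi_lt_iff hr).2 fun c => ?_,
      fun h => hzK ?_⟩
    · split_ifs with h
      · exact (dist_pi_lt_iff hr).1 hz ⟨c, h⟩
      · simpa using hr
    · simpa [Z] using h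
  obtain ⟨y, hy, hyZ⟩ := Metric.dense_iff.1 (dense_biInter_of_isOpen
    (S := {I : Finset C | m ≤ I.card + 3}) (f := fun I => (Z I)ᶜ) (fun I hI => (hZ I hI).1)
    (Set.to_countable _) fun I hI => (hZ I hI).2) 0 ε hε
  let O : ℝ → Set X := fun η => ⋂ I ∈ {I : Finset C | m ≤ I.card + 3},
    ⋃ c ∈ I, {p | η < |a c p + -y c|}
  have hO : ∀ η, IsOpen (O η) := fun η => (Set.toFinite _).isOpen_biInter fun I _ =>
    isOpen_biUnion fun c _ => isOpen_lt continuous_const ((ha c).continuous.add_const _).abs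
  obtain ⟨η, hη, hsub⟩ : ∃ η > 0, B ⊆ O η := by
    refine hB.isCompact.induction_on ⟨1, one_pos, empty_subset _⟩
      (fun s t hst ⟨η, h1, h2⟩ => ⟨η, h1, hst.trans h2⟩) (fun s t ⟨η, h1, h2⟩ ⟨η', h1', h2'⟩ => ?_)
      fun q hq => ?_
    · have mono : ∀ {η η' : ℝ}, η ≤ η' → O η' ⊆ O η := fun h =>
        iInter₂_mono fun I _ => iUnion₂_mono fun c _ p hp => h.trans_lt hp
      exact ⟨min η η', lt_min h1 h1', union_subset (h2.trans (mono (min_le_left _ _)))
        (h2'.trans (mono (min_le_right _ _)))⟩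
    · have h1 : ∀ᶠ η in 𝓝[>] (0 : ℝ), ∀ c, a c q + -y c ≠ 0 → η < |a c q + -y c| :=
        eventually_all.2 fun c => by
          by_cases h : a c q + -y c = 0
          · exact .of_forall fun _ h' => absurd h h'
          · exact ((eventually_lt_nhds (abs_pos.2 h)).filter_mono nhdsWithin_le_nhds).mono
              fun _ h _ => h
      obtain ⟨η, h2, h3⟩ := (h1.and self_mem_nhdsWithin).exists
      refine ⟨O η, mem_nhdsWithin_of_mem_nhds ((hO η).mem_nhds (mem_iInter₂.2 fun I hI => ?_)),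
        η, h3, Subset.rfl⟩
      by_contra hn
      refine mem_iInter₂.1 hyZ I hI ⟨q, hq, funext fun c => ?_⟩
      by_contra h4
      exact hn (mem_iUnion₂.2 ⟨c, c.2, h2 c fun h => h4 (add_neg_eq_zero.1 h)⟩)
  obtain ⟨t, ht, hsep⟩ := Imm.exists_lebesgue hM hB.isCompact (fun _ : Unit => O η)
    (fun _ => hO η) fun q hq => mem_iUnion.2 ⟨(), hsub hq⟩
  refine ⟨fun c => -y c, fun c => ?_, η, t / 2, hη, half_pos ht, fun p q hq h I hI => ?_⟩
  · simpa using (norm_le_pi_norm y c).trans (mem_ball_zero_iff.1 hy).le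
  · by_contra hn
    obtain ⟨-, h1⟩ := hsep q hq
    obtain ⟨c, hc, h2⟩ := mem_iUnion₂.1 (mem_iInter₂.1 (h1 p (by linarith)) I
      (show m ≤ I.card + 3 by omega))
    exact (hI c hc).not_gt h2

end Crest.Agent.N228.Nk

end
end

-- ▼ part N228/G/Gen
section

/-! # Row 228, block G (helper16): the generic shift -/

set_option autoImplicit false

namespace Crest.Agent.N228.G

theorem gen : GenStmt := by
  intro d ι _ _ X _ _ _ _ _ M _ hM C _ m B φ hB hN hφ ε hε
  obtain ⟨ξ, h1, η, t, h2, h3, h⟩ := Nk.gen_multi hM hB hN hφ hε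
  exact ⟨ξ, h1, η, t, h2, h3, fun p q hq hp => le_trans (Nat.add_le_add_left (by norm_num) _)
    (h p q hq hp _ fun c hc => (Finset.mem_filter.1 hc).2)⟩

end Crest.Agent.N228.G
end

-- ▼ part N228/G/Boost
section

/-!
# Row 228, block G, leaf Boost
-/

set_option autoImplicit false
open Set Filter Topology Function Real
open scoped ContDiff
open Crest.Agent.N222

noncomputable section

namespace Crest.Agent.N228.G

open Crest.Agent.N228.J (JC)

namespace Bo

variable {d : ℕ} {ι : Type} [Fintype ι] [DecidableEq ι] {X : Type} [TopologicalSpace X]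
  {M : Imm d ι X} {p : X}

theorem grad_der {f1 f2 f3 : X → ℝ} (h1 : M.Sm f1) (h2 : M.Sm f2) (h3 : M.Sm f3)
    {B : ℝ × ℝ × ℝ → ℝ} {c1 c2 c3 : ℝ} (h : Der B (f1 p, f2 p, f3 p) c1 c2 c3) :
    M.grad (fun q => B (f1 q, f2 q, f3 q)) p =
      c1 • M.grad f1 p + c2 • M.grad f2 p + c3 • M.grad f3 p := by
  obtain ⟨L, hL, hL'⟩ := h
  have := Imm.td_comp ((h1.prodMk (h2.prodMk h3)).diffAt p) hL.differentiableAt
  rw [hL.fderiv, Imm.td_prodMk (h1.diffAt p) ((h2.prodMk h3).diffAt p),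
    Imm.td_prodMk (h2.diffAt p) (h3.diffAt p)] at this
  ext a
  exact (congrArg (fun T : E ι →L[ℝ] ℝ => T (ee a)) this).trans (hL' _)

theorem grad_comp {f : X → ℝ} (hf : M.Sm f) {g : ℝ → ℝ} {g' : ℝ} (hg : HasDerivAt g g' (f p)) :
    M.grad (fun q => g (f q)) p = g' • M.grad f p := by
  ext a
  exact Imm.D_comp (hf.diffAt p) hg a

theorem abs_le_of_shr {a b : ℝ} (h : Shr1 a b) (hb : |b| ≤ π / 2) : |a| ≤ π / 2 :=
  abs_le.2 ⟨le_of_not_gt fun h1 => (h.2 h1).not_ge (abs_le.1 hb).1,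
    le_of_not_gt fun h1 => (h.1 h1).not_ge (abs_le.1 hb).2⟩

theorem exp_le {θ c k t : ℝ} (hθ : 0 < θ) (hc : 0 < c) (ht : 0 < t)
    (h : t ≤ exp (20 * (log θ + 3 / 5 * (log c - log k - 1)))) :
    exp (-(3 / 5) * (log (c / t ^ (7 / 4 : ℝ)) - log k - 1)) ≤ θ * t := by
  rw [← log_le_iff_le_exp ht] at h
  rw [← le_log_iff_exp_le (by positivity), log_mul hθ.ne' ht.ne',
    log_div hc.ne' (by positivity), log_rpow ht]
  linarith

end Bo

open Bo in
theorem boost : BoostStmt := by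
  intro d ι _ _ X _ _ _ _ _ M hX C _ φ η η0 Vm Cχ c w0 D o hφ hη h0 hc hw ho hD
  obtain ⟨Y, ρ, q, h⟩ := exists_cu (η := min η0 1 / 4) (by positivity)
    (by linarith [min_le_right η0 1])
  obtain ⟨G, G0, hG⟩ := (isCompact_range (continuous_pi fun b => (hφ b).grad.continuous)
    ).isBounded.exists_pos_norm_le
  have a0 : ∀ b, 0 < √(η b) / 8 := fun b => by have := hη b; positivity
  choose x K x0 K0 hx using fun b => h.est (a0 b) G0.le (sqrt_nonneg Vm)
  obtain ⟨θ, θ0, hθ⟩ : ∃ θ : ℝ, 0 < θ ∧ ∀ b, θ * (K b + |Cχ|) ≤ √(η b) / 8 / 2 := by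
    have h1 : ∀ b, 0 ≤ (K b + |Cχ|) / (√(η b) / 8 / 2) := fun b => by
      have := K0 b; have := a0 b; positivity
    have h2 : 0 < ∑ b, (K b + |Cχ|) / (√(η b) / 8 / 2) + 1 :=
      add_pos_of_nonneg_of_pos (Finset.sum_nonneg fun b _ => h1 b) one_pos
    refine ⟨_, inv_pos.2 h2, fun b => ?_⟩
    rw [inv_mul_le_iff₀ h2, ← div_le_iff₀ (half_pos (a0 b))]
    linarith [Finset.single_le_sum (fun b _ => h1 b) (Finset.mem_univ b)]
  have hs := inv_pos.2 h.sin_pos
  set M0 := (sin (min η0 1 / 4))⁻¹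
  set θ' := min (1 / 2) (θ / (2 * M0)) with hθ'
  have θ1 : 0 < θ' := by positivity
  refine ⟨∑ b, 100 / 3 * x b ^ 2, fun k => min 1 (exp (20 * (log θ' + 3 / 5 * (log c - log k - 1)))),
    by positivity, fun k => by positivity, fun W k t χ hW W1 k0 H => ?_⟩
  have km : ∀ i j, i ≤ j → j ≤ D → k i ≤ k j := fun i j hij => by
    induction j, hij using Nat.le_induction with
    | base => exact fun _ => le_rfl
    | succ j _ ih => exact fun hj => (ih (by omega)).trans (H j (by omega)).1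
  have k1 : ∀ b, w0 ≤ k (o b) := fun b => k0 ▸ km 0 _ (Nat.zero_le _) (hD b).le
  have H := fun b => H _ (hD b)
  have t0 := fun b => (H b).2.1
  have t1 := fun b => (H b).2.2.1.trans (min_le_left _ _)
  have e1 := fun b => exp_le θ1 hc (t0 b) ((H b).2.2.1.trans (min_le_right _ _))
  have e2 := fun b => (e1 b).trans ((mul_le_of_le_one_right θ1.le (t1 b)).trans (min_le_left _ _))
  have hAB : ∀ b, log (k (o b)) + 1 ≤ log (c / t (o b) ^ (7 / 4 : ℝ)) := fun b => by
    linarith [exp_le_one_iff.1 ((e2 b).trans one_half_lt_one.le)]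
  choose Ω Ω' sΩ dΩ lo hi using fun b => exists_Om (hAB b)
  have W0 : ∀ p, 0 < W p := fun p => one_pos.trans_le (W1 p)
  have hL : M.Sm fun p => log (W p) := hW.log fun p => (W0 p).ne'
  have sat : ∀ b p, log (W p) < log (c / t (o b) ^ (7 / 4 : ℝ)) →
      χ (o b) p = 1 ∧ M.pre.gam (χ (o b)) (χ (o b)) p = 0 := fun b p hp => by
    by_contra hn
    have := t0 b
    exact hp.not_ge (log_le_log (by positivity) ((H b).2.2.2.2.2.2.1 p (not_and_or.1 hn)))
  have rg : ∀ s ∈ Icc (0 : ℝ) 1, ∀ b p, 0 ≤ s * (1 - Ω b (log (W p))) ∧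
      s * (1 - Ω b (log (W p))) < 1 ∧ 0 ≤ s * (θ * t (o b) * (1 - χ (o b) p)) := fun s hs b p =>
    ⟨mul_nonneg hs.1 (sub_nonneg.2 (dΩ b _).2.2.1), (mul_le_of_le_one_left
      (sub_nonneg.2 (dΩ b _).2.2.1) hs.2).trans_lt (sub_lt_self _ (dΩ b _).2.1), mul_nonneg hs.1
      (mul_nonneg (mul_pos θ0 (t0 b)).le (sub_nonneg.2 ((H b).2.2.2.2.1 p).2))⟩
  have shr : ∀ s ∈ Icc (0 : ℝ) 1, ∀ b p, Shr1 (φ b p) (BB Y ρ q (φ b p, s * (1 - Ω b (log (W p))),
      s * (θ * t (o b) * (1 - χ (o b) p)))) := fun s hs b p => by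
    obtain ⟨r1, r2, r3⟩ := rg s hs b p
    refine ⟨h.shr r1 r2 r3, fun h1 => ?_⟩
    have := h.shr r1 r2 r3 (lt_neg.1 h1)
    rw [BB_neg] at this
    exact lt_neg.1 this
  have s1 : ∀ b, M.Sm fun p => 1 - Ω b (log (W p)) := fun b => (Imm.sm_const 1).sub (hL.comp (sΩ b))
  have s2 : ∀ b, M.Sm fun p => θ * t (o b) * (1 - χ (o b) p) := fun b =>
    (Imm.sm_const _).mul ((Imm.sm_const 1).sub (H b).2.2.2.1)
  refine ⟨fun s b p => BB Y ρ q (φ b p, s * (1 - Ω b (log (W p))),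
    s * (θ * t (o b) * (1 - χ (o b) p))), fun b => ?_, ?_, fun b p h1 h2 => ?_,
    fun s hs => ⟨shr s hs, fun p hp b => ?_, fun p P r V hP r0 hV ⟨β, hβ, hV'⟩ => ?_⟩⟩
  · exact ((JC.of_sm rfl isOpen_univ (hφ b)).prodMk
      (((JC.consts isOpen_univ continuous_id).mul (JC.of_sm rfl isOpen_univ (s1 b))).prodMk
      ((JC.consts isOpen_univ continuous_id).mul (JC.of_sm rfl isOpen_univ (s2 b))))).comp
      h.contDiff
  · funext b p
    simp only [zero_mul, BB_zero]
  · obtain ⟨r1, r2, -⟩ := rg 1 ⟨zero_le_one, le_rfl⟩ b p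
    have h3 : (1 - 1 * (1 - Ω b (log (W p)))) * M0 < 1 * (θ * t (o b) * (1 - χ (o b) p)) := by
      rw [(hi b _ (le_of_not_gt fun h => by simpa [h1] using (sat b p h).1)).1, h1]
      have h4 := (le_div_iff₀ (by positivity)).1 (min_le_right (1 / 2) (θ / (2 * M0)))
      nlinarith [mul_le_mul_of_nonneg_right (e1 b) hs.le, mul_pos θ0 (t0 b),
        mul_le_mul_of_nonneg_right h4 (t0 b).le]
    rcases le_abs.1 h2 with h4 | h4
    · exact (h.push r1 r2 (by linarith [min_le_left η0 1]) h3).trans_le (le_abs_self _)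
    · have := h.push (t := -φ b p) r1 r2 (by linarith [min_le_left η0 1]) h3
      rw [BB_neg] at this
      exact this.trans_le (neg_le_abs _)
  · have h1 := log_le_log (W0 p) (hp.le.trans (k1 b))
    simp only [(lo b _ h1).1, (sat b p (by linarith [hAB b])).1, sub_self, mul_zero, BB_zero]
  classical
  set l := ‖P (M.grad (fun q => log (W q)) p)‖ with hl
  have sub : ∀ b ∈ fin (ev (fun b p => BB Y ρ q (φ b p, s * (1 - Ω b (log (W p))),
      s * (θ * t (o b) * (1 - χ (o b) p)))) p), b ∈ fin (ev φ p) := fun b hb =>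
    Finset.mem_filter.2 ⟨Finset.mem_univ _, abs_le_of_shr (shr s hs b p) (Finset.mem_filter.1 hb).2⟩
  have nn : ∀ b, 0 ≤ 4 / 3 * β b ^ 2 + r b := fun b => add_nonneg (by positivity) (r0 b)
  have hP' : ∀ v, ‖P v‖ ≤ ‖v‖ := fun v =>
    (P.le_opNorm v).trans (mul_le_of_le_one_left (norm_nonneg _) hP)
  refine ⟨fun b => x b + if Ω' b (log (W p)) = 0 then 0 else 3 / 5 * l, fun b hb => ?_, ?_⟩
  · obtain ⟨r1, r2, r3⟩ := rg s hs b p
    obtain ⟨c1, c2, c3, hd, h1⟩ := hx b _ _ _ r1 r2 r3 (Finset.mem_filter.1 hb).2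
    have d2 := grad_comp (p := p) hL (((dΩ b _).1.const_sub 1).const_mul s)
    have d3 := grad_comp (p := p) (H b).2.2.2.1
      ((((hasDerivAt_id' _).const_sub 1).const_mul (θ * t (o b))).const_mul s)
    have h2 : ‖P (M.grad (fun p => s * (θ * t (o b) * (1 - χ (o b) p))) p)‖ ≤
        s * (θ * t (o b)) * √(M.pre.gam (χ (o b)) (χ (o b)) p) := by
      refine (hP' _).trans_eq ?_
      rw [d3, norm_smul, Imm.gam_self_eq, sqrt_sq (norm_nonneg _), mul_neg, mul_neg, norm_neg,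
        mul_one, Real.norm_of_nonneg (mul_nonneg hs.1 (mul_pos θ0 (t0 b)).le)]
    refine lt_of_le_of_lt ?_ (h1 (β b) _ _ ‖P (M.grad (fun p => s * (1 - Ω b (log (W p)))) p)‖
      ‖P (M.grad (fun p => s * (θ * t (o b) * (1 - χ (o b) p))) p)‖ (abs_le_sqrt ?_)
      (by positivity) (norm_nonneg _) ((hP' _).trans ((norm_le_pi_norm
        (fun b => M.grad (φ b) p) b).trans (hG _ ⟨p, rfl⟩))) (hβ b (sub b hb)) (norm_nonneg _) ?_
      (norm_nonneg _) ?_ ?_)
    · simp only [grad_der (hφ b) ((Imm.sm_const s).mul (s1 b)) ((Imm.sm_const s).mul (s2 b)) hd,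
        map_add, map_smul]
      exact norm_add₃_le.trans_eq (by simp only [norm_smul, Real.norm_eq_abs])
    · linarith [Finset.single_le_sum (fun b _ => nn b) (sub b hb), r0 b, sq_nonneg (β b)]
    · rw [d2, map_smul, norm_smul, mul_neg, norm_neg, Real.norm_eq_abs, abs_mul, abs_of_nonneg hs.1]
      split_ifs with h3
      · simp [h3]
      · have h4 : s * |Ω' b (log (W p))| ≤ (1 - s * (1 - Ω b (log (W p)))) * (3 / 5) := by
          linarith [mul_le_mul_of_nonneg_left (dΩ b (log (W p))).2.2.2 hs.1, hs.2]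
        exact (mul_le_mul_of_nonneg_right h4 (norm_nonneg _)).trans_eq (mul_assoc _ _ _)
    · rcases lt_or_ge (log (W p)) (log (c / t (o b) ^ (7 / 4 : ℝ))) with h3 | h3
      · rw [(sat b p h3).2, sqrt_zero, mul_zero] at h2
        rw [(sat b p h3).1]
        linarith [mul_nonneg (a0 b).le r1]
      · have h4 : s * (θ * t (o b)) * √(M.pre.gam (χ (o b)) (χ (o b)) p) ≤ s * (θ * |Cχ|) := by
          refine (mul_le_mul_of_nonneg_left (((H b).2.2.2.2.2.1 p).trans (div_le_div_of_nonneg_right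
            (le_abs_self _) (t0 b).le)) (mul_nonneg hs.1 (mul_pos θ0 (t0 b)).le)).trans_eq ?_
          have := (t0 b).ne'
          field_simp
        have h5 : K b * (s * (θ * t (o b) * (1 - χ (o b) p))) ≤ K b * (s * (θ * 1 * 1)) := by
          have := K0 b
          have := hs.1
          have := ((H b).2.2.2.2.1 p).2
          gcongr
          exacts [t1 b, sub_le_self _ ((H b).2.2.2.2.1 p).1]
        rw [(hi b _ h3).1]
        linarith [mul_le_mul_of_nonneg_left (hθ b) hs.1,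
          mul_le_mul_of_nonneg_left (e2 b) (mul_nonneg (a0 b).le hs.1)]
    · rcases lt_or_ge (log (W p)) (log (c / t (o b) ^ (7 / 4 : ℝ))) with h3 | h3
      · simp [(sat b p h3).1]
      · simp [(hi b _ h3).2]
  · have h1 : ∀ b, Ω' b (log (W p)) ≠ 0 → k (o b) < W p ∧ W p < k (o b + 1) := fun b hb =>
      ⟨lt_of_not_ge fun h1 => hb (lo b _ (log_le_log (W0 p) h1)).2, lt_of_not_ge fun h1 =>
        (H b).2.2.2.2.2.2.2 p h1 (subset_tsupport _ (by
          simp [(sat b p (lt_of_not_ge fun h2 => hb (hi b _ h2).2)).1]))⟩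
    have h2 : ∑ b, (if Ω' b (log (W p)) = 0 then 0 else 3 / 5 * l) ^ 2 ≤ (3 / 5 * l) ^ 2 := by
      by_cases h2 : ∃ b, Ω' b (log (W p)) ≠ 0
      · obtain ⟨b, hb⟩ := h2
        rw [Finset.sum_eq_single b (fun b' _ hb' => ?_) (by simp), if_neg hb]
        rw [if_pos (by_contra fun h3 => ?_), zero_pow two_ne_zero]
        rcases lt_or_gt_of_ne (ho.ne hb') with h4 | h4
        · linarith [(h1 b hb).1, (h1 b' h3).2, km _ _ h4 (hD b).le]
        · linarith [(h1 b hb).2, (h1 b' h3).1, km _ _ h4 (hD b').le]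
      · rw [Finset.sum_eq_zero fun b _ => by simp [not_not.1 (not_exists.1 h2 b)]]
        positivity
    refine lt_of_le_of_lt (Finset.sum_le_sum (g := fun b => 100 / 3 * x b ^ 2 + 25 / 18 *
      (if Ω' b (log (W p)) = 0 then 0 else 3 / 5 * l) ^ 2 + (4 / 3 * β b ^ 2 + r b)) fun b _ => ?_) ?_
    · nlinarith [sq_nonneg (24 * x b - if Ω' b (log (W p)) = 0 then 0 else 3 / 5 * l),
        sq_nonneg (β b)]
    · rw [Finset.sum_add_distrib, Finset.sum_add_distrib, ← Finset.mul_sum _ _ (25 / 18 : ℝ)]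
      have h3 := Finset.sum_le_sum_of_subset_of_nonneg sub fun b _ _ => nn b
      have h4 := Finset.sum_le_univ_sum_of_nonneg (s := fin (ev (fun b p => BB Y ρ q (φ b p,
        s * (1 - Ω b (log (W p))), s * (θ * t (o b) * (1 - χ (o b) p)))) p))
        (f := fun b => 100 / 3 * x b ^ 2) fun b => by positivity
      have h5 := Finset.sum_le_univ_sum_of_nonneg (s := fin (ev (fun b p => BB Y ρ q (φ b p,
        s * (1 - Ω b (log (W p))), s * (θ * t (o b) * (1 - χ (o b) p)))) p))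
        (f := fun b => (if Ω' b (log (W p)) = 0 then 0 else 3 / 5 * l) ^ 2) fun b => sq_nonneg _
      linarith

end Crest.Agent.N228.G

end
end

-- ▼ part N228/G/Mid0
section

/-!
# Row 228, block G, MID (helper32): the class at one point, the shift, concatenation
-/

set_option autoImplicit false
open MeasureTheory Set Filter Topology Function Metric Real
open scoped ContDiff InnerProductSpace RealInnerProductSpace
open Crest.Agent.N222

noncomputable section

namespace Crest.Agent.N228.G.Md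

open Crest.Agent.N228.J (JC)

section Pt

variable {C : Type} [Fintype C] {η r : C → ℝ} {V V' : ℝ} {φ φ' g g' : C → ℝ} {m : ℕ}

theorem mem_fin {c : C} : c ∈ fin φ ↔ |φ c| ≤ π / 2 := by simp [fin]

theorem shr1_abs {a b : ℝ} (h : Shr1 a b) (hb : |b| ≤ π / 2) : |a| ≤ π / 2 := by
  by_contra hc
  rcases lt_abs.1 (not_le.1 hc) with h1 | h1
  · have := h.1 h1; have := le_abs_self b; linarith
  · have := h.2 (by linarith); have := neg_abs_le b; linarith

theorem shr1_trans {a b c : ℝ} (h : Shr1 a b) (h' : Shr1 b c) : Shr1 a c :=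
  ⟨fun x => h'.1 (h.1 x), fun x => h'.2 (h.2 x)⟩

theorem few_of_sub (h : Few m φ) (hs : ∀ c, |φ' c| ≤ π / 2 → |φ c| ≤ π / 2) : Few m φ' :=
  le_trans (Nat.add_le_add_right
    (Finset.card_le_card fun c hc => mem_fin.2 (hs c (mem_fin.1 hc))) 2) h

theorem ok_mono (h : Ok η r V φ g) (hV : V ≤ V') : Ok η r V' φ g := by
  obtain ⟨β, h1, h2⟩ := h
  exact ⟨β, h1, h2.trans_le hV⟩

/-- reserves are paid by the potential -/
theorem ok_add (h : Ok η r V φ g) (l : C → ℝ) :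
    Ok η (r + l) (V + ∑ b ∈ fin φ, l b) φ g := by
  obtain ⟨β, h1, h2⟩ := h
  refine ⟨β, h1, ?_⟩
  have : ∑ c ∈ fin φ, (4 / 3 * β c ^ 2 + (r + l) c) =
      ∑ c ∈ fin φ, (4 / 3 * β c ^ 2 + r c) + ∑ b ∈ fin φ, l b := by
    rw [← Finset.sum_add_distrib]
    exact Finset.sum_congr rfl fun c _ => by rw [Pi.add_apply]; ring
  rw [this]; linarith

variable [DecidableEq C]

/-- parking a colour frees its reserve -/
theorem ok_park {c : C} (h : Ok η r V φ g) (hc : π / 2 < |φ' c|)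
    (he : ∀ b, b ≠ c → φ' b = φ b ∧ g' b = g b) :
    Ok η r (V - if |φ c| ≤ π / 2 then r c else 0) φ' g' := by
  obtain ⟨β, h1, h2⟩ := h
  have hf : fin φ' = (fin φ).erase c := by
    ext b
    rw [Finset.mem_erase, mem_fin, mem_fin]
    by_cases hb : b = c
    · subst hb; simp [hc]
    · simp [hb, (he b hb).1]
  refine ⟨β, fun b hb => ?_, ?_⟩
  · rw [hf, Finset.mem_erase] at hb
    rw [(he b hb.1).1, (he b hb.1).2]
    exact h1 b hb.2
  · rw [hf]
    split_ifs with h0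
    · rw [← Finset.add_sum_erase _ _ (mem_fin.2 h0)] at h2
      nlinarith [sq_nonneg (β c)]
    · rw [Finset.erase_eq_of_notMem fun x => h0 (mem_fin.1 x)]
      linarith

theorem le_rate {η0 b a : ℝ} (hb : 0 ≤ b) (hb' : b ≤ √η0 / 8) (ha : |a| ≤ π / 2) :
    b ≤ rate η0 b a := by
  have h0 : 0 ≤ cos a := cos_nonneg_of_mem_Icc (abs_le.1 ha)
  have h1 := cos_le_one a
  have h2 := sin_sq a
  have h3 : b * sin a ^ 2 ≤ √η0 / 8 * sin a ^ 2 := mul_le_mul_of_nonneg_right hb' (sq_nonneg _)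
  have h4 : 0 ≤ b * (cos a * (1 - cos a)) := mul_nonneg hb (mul_nonneg h0 (by linarith))
  unfold rate
  rw [h2] at h3 ⊢
  nlinarith

/-- a parked colour comes back with a small slope -/
theorem ok_put {c : C} (h : Ok η r V φ g) (hc : π / 2 < |φ c|) {a e b : ℝ} (hb : 0 ≤ b)
    (hb' : b ≤ √(η c) / 8) (he : |a| ≤ π / 2 → e < b) :
    Ok η r (V + if |a| ≤ π / 2 then 4 / 3 * b ^ 2 + r c else 0) (update φ c a) (update g c e) := by
  obtain ⟨β, h1, h2⟩ := h
  have hn : c ∉ fin φ := fun x => (not_le.2 hc) (mem_fin.1 x)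
  have hs : ∑ x ∈ fin φ, (4 / 3 * update β c b x ^ 2 + r x) =
      ∑ x ∈ fin φ, (4 / 3 * β x ^ 2 + r x) :=
    Finset.sum_congr rfl fun x hx => by rw [update_of_ne (ne_of_mem_of_not_mem hx hn)]
  refine ⟨update β c b, fun x hx => ?_, ?_⟩
  · rw [mem_fin] at hx
    by_cases hxc : x = c
    · subst hxc
      simp only [update_self] at hx ⊢
      exact (he hx).trans_le (le_rate hb hb' hx)
    · simp only [update_of_ne hxc] at hx ⊢
      exact h1 x (mem_fin.2 hx)
  · split_ifs with h0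
    · have hf : fin (update φ c a) = insert c (fin φ) := by
        ext x
        rw [Finset.mem_insert, mem_fin, mem_fin]
        by_cases hxc : x = c
        · subst hxc; simp [h0]
        · simp [hxc]
      rw [hf, Finset.sum_insert hn, hs, update_self]
      linarith
    · have hf : fin (update φ c a) = fin φ := by
        ext x
        rw [mem_fin, mem_fin]
        by_cases hxc : x = c
        · subst hxc; simp [h0, hc]
        · simp [hxc]
      rw [hf, hs]
      linarith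

/-- the class on a graph -/
theorem gph_pt {c : C} {γ : ℝ} {k : ℝ → ℝ} (hS : Spl m η r c γ k V φ g) (hγ : 0 ≤ γ)
    (hr : η c ≤ r c) {d1 d2 : ℝ} (h1 : 0 ≤ d1) (h2 : 0 ≤ d2) (h12 : d1 ^ 2 + d2 ^ 2 ≤ g c ^ 2)
    {φ1 g1 ψ gψ : C → ℝ} (hn : ∀ b, b ≠ c → |φ1 b - φ b| ≤ γ ∧ g1 b ≤ g b + γ)
    (hc : π / 2 < |φ1 c|) (hs : ∀ b, Shr1 (φ1 b) (ψ b)) {Δ : ℝ}
    (hb : ∀ V0, V0 ≤ V → Ok η (update r c (r c - η c)) V0 φ1 g1 →
      Ok η (update r c (r c - η c)) (V0 + Δ) ψ gψ)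
    {a e b : ℝ} (hb0 : 0 ≤ b) (hb1 : b ≤ √(η c) / 8)
    (hae : |a| ≤ π / 2 → |φ c| ≤ π / 2 ∧ e < b)
    (hV : V + min 0 (k (φ c) ^ 2 - 2 * (|deriv k (φ c)| * d1)) - γ + Δ + 4 / 3 * b ^ 2 ≤ V') :
    Good (m + 1) η (update r c (r c - η c)) V' (update ψ c a) (update gψ c e) := by
  have hG := hS.gr d1 d2 _ (update φ1 c (φ c)) (update g1 c d2) h1 h2 h12 le_rfl
    (fun x => by
      by_cases hx : x = c
      · subst hx; simpa using hγ
      · rw [update_of_ne hx]; exact (hn x hx).1)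
    (fun x hx => by rw [update_of_ne hx]; exact (hn x hx).2) (by rw [update_self]; linarith)
  rcases hG with hG | hG
  · refine Or.inl (few_of_sub hG fun x hx => ?_)
    by_cases hxc : x = c
    · subst hxc
      simp only [update_self] at hx ⊢
      exact (hae hx).1
    · simp only [update_of_ne hxc] at hx ⊢
      exact shr1_abs (hs x) hx
  · have h3 := ok_park (φ' := φ1) (g' := g1) hG hc fun x hx => by
      rw [update_of_ne hx, update_of_ne hx]; exact ⟨rfl, rfl⟩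
    simp only [update_self] at h3
    have hm := min_le_left 0 (k (φ c) ^ 2 - 2 * (|deriv k (φ c)| * d1))
    have h4 := hb _ (by split_ifs <;> linarith) h3
    have hψ : π / 2 < |ψ c| := not_le.1 fun x => (not_le.2 hc) (shr1_abs (hs c) x)
    refine Or.inr (ok_mono (ok_put h4 hψ hb0 hb1 fun x => (hae x).2) ?_)
    simp only [update_self]
    have := sq_nonneg b
    by_cases ha : |a| ≤ π / 2
    · rw [if_pos ha, if_pos (hae ha).1]; linarith
    · rw [if_neg ha]; split_ifs <;> linarith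

/-- the class on the slice -/
theorem slc_pt {c : C} {γ : ℝ} {k : ℝ → ℝ} (hS : Spl m η r c γ k V φ g) (h0 : |φ c| ≤ π / 2)
    {φ1 g1 ψ gψ : C → ℝ} (hn : ∀ b, b ≠ c → |φ1 b - φ b| ≤ γ ∧ g1 b ≤ g b + γ)
    (hc : π / 2 < |φ1 c|) (hs : ∀ b, Shr1 (φ1 b) (ψ b)) {σ : ℝ} {l : C → ℝ}
    (hl : ∑ b ∈ fin φ1, l b ≤ σ)
    (hb : Ok η (r + l) (V + k (φ c) ^ 2 - 2 * (|deriv k (φ c)| * g c) - γ - (r c - η c) + σ) φ1 g1 →
      Ok η (r + l) V' ψ gψ) : Good m η (r + l) V' ψ gψ := by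
  rcases hS.sl h0 _ φ1 g1 le_rfl hn hc with hG | hG
  · exact Or.inl (few_of_sub hG fun x hx => shr1_abs (hs x) hx)
  · exact Or.inr (hb (ok_mono (ok_add hG l) (by linarith)))

end Pt

variable {d : ℕ} {ι : Type} [Fintype ι] [DecidableEq ι] {X : Type} [TopologicalSpace X]
  {C : Type} {M : Imm d ι X}

theorem grad_lin {f g h : X → ℝ} (hf : M.Sm f) (hg : M.Sm g) (hh : M.Sm h) (a b : ℝ) (p : X) :
    M.grad (fun q => f q + (a * g q + b * h q)) p =
      M.grad f p + (a • M.grad g p + b • M.grad h p) := by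
  have h1 : M.Sm fun q => a * g q := (Imm.sm_const a).mul hg
  have h2 : M.Sm fun q => b * h q := (Imm.sm_const b).mul hh
  ext c
  change M.pre.D c _ p = M.pre.D c f p + (a * M.pre.D c g p + b * M.pre.D c h p)
  rw [Imm.D_add (hf.diffAt p) ((h1.add h2).diffAt p), Imm.D_add (h1.diffAt p) (h2.diffAt p),
    Imm.D_const_mul a (hg.diffAt p), Imm.D_const_mul b (hh.diffAt p)]

theorem grad_congr {f g : X → ℝ} {p : X} (h : f =ᶠ[𝓝 p] g) : M.grad f p = M.grad g p := by
  ext c; exact Imm.D_congr h c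

theorem grad_comp {f : X → ℝ} {p : X} (hf : M.Sm f) {g : ℝ → ℝ} {g' : ℝ}
    (hg : HasDerivAt g g' (f p)) : M.grad (fun q => g (f q)) p = g' • M.grad f p := by
  ext c; exact Imm.D_comp (hf.diffAt p) hg c

theorem gam_div {w : X → ℝ} (hw : M.Sm w) {p : X} (h0 : 0 < w p) :
    M.pre.gam w w p / w p ^ 2 = ‖M.grad (fun q => log (w q)) p‖ ^ 2 := by
  rw [grad_comp hw (hasDerivAt_log h0.ne'), norm_smul, Imm.gam_self_eq, mul_pow, norm_inv,
    Real.norm_eq_abs, inv_pow, sq_abs, div_eq_inv_mul]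

/-- the shift: dilation and translation of the phases where `χ = 1` -/
theorem shift [Fintype C] [T2Space X] [CompactSpace X] {φ : C → X → ℝ} (hφ : ∀ b, M.Sm (φ b))
    {χ : X → ℝ} (hχ : M.Sm χ) (h01 : ∀ p, 0 ≤ χ p) {γ : ℝ} (hγ : 0 < γ) :
    ∃ e : ℝ, 0 < e ∧ ∀ ξ : C → ℝ, (∀ b, |ξ b| ≤ e) → ∃ f : ℝ → C → X → ℝ,
      (∀ b, JC M.atl univ fun s => f s b) ∧ f 0 = φ ∧
      (∀ b p, χ p = 1 → f 1 b p = (1 + e) * φ b p + ξ b) ∧
      ∀ s ∈ Icc (0 : ℝ) 1, Shr φ (f s) ∧ ∀ b p, (χ p = 0 → f s b p = φ b p) ∧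
        |f s b p - φ b p| ≤ γ ∧ ‖M.grad (f s b) p‖ ≤ ‖M.grad (φ b) p‖ + γ := by
  have hm : ∀ b, M.Sm fun p => χ p * φ b p := fun b => hχ.mul (hφ b)
  obtain ⟨K, hK, hb⟩ := Imm.exists_bound (f := fun p b => (|χ p * φ b p| + |χ p|) +
      (‖M.grad (fun p => χ p * φ b p) p‖ + ‖M.grad χ p‖)) (continuous_pi fun b =>
    ((hm b).continuous.abs.add hχ.continuous.abs).add
      ((hm b).grad.continuous.norm.add hχ.grad.continuous.norm))
  have hb' : ∀ b p, |χ p * φ b p| + |χ p| ≤ K ∧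
      ‖M.grad (fun p => χ p * φ b p) p‖ + ‖M.grad χ p‖ ≤ K := fun b p => by
    have h1 := (le_abs_self _).trans ((norm_le_pi_norm _ b).trans (hb p))
    have h2 : 0 ≤ |χ p * φ b p| + |χ p| := by positivity
    have h3 : 0 ≤ ‖M.grad (fun p => χ p * φ b p) p‖ + ‖M.grad χ p‖ := by positivity
    constructor <;> linarith
  have he : 0 < γ / K := div_pos hγ hK
  have heK : γ / K * K = γ := div_mul_cancel₀ _ hK.ne'
  refine ⟨γ / K, he, fun ξ hξ => ⟨fun s b p =>
    φ b p + (s * (γ / K) * (χ p * φ b p) + s * ξ b * χ p), fun b => ?_, ?_, fun b p h => ?_,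
    fun s hs => ⟨fun b p => ?_, fun b p => ⟨fun h => ?_, ?_, ?_⟩⟩⟩⟩
  · exact (JC.of_sm rfl isOpen_univ (hφ b)).add
      (((JC.consts isOpen_univ (continuous_id.mul continuous_const)).mul
        (JC.of_sm rfl isOpen_univ (hm b))).add
      ((JC.consts isOpen_univ (continuous_id.mul continuous_const)).mul
        (JC.of_sm rfl isOpen_univ hχ)))
  · funext b p; simp
  · beta_reduce; rw [h]; ring
  · have h1 := abs_le.1 (hξ b)
    have h2 : 0 ≤ s * χ p := mul_nonneg hs.1 (h01 p)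
    have h3 : 1 ≤ π / 2 := by linarith [pi_gt_three]
    constructor
    · intro h
      have : 0 ≤ s * χ p * (γ / K * φ b p + ξ b) := mul_nonneg h2 (by nlinarith)
      nlinarith
    · intro h
      have : s * χ p * (γ / K * φ b p + ξ b) ≤ 0 :=
        mul_nonpos_of_nonneg_of_nonpos h2 (by nlinarith)
      nlinarith
  · beta_reduce; rw [h]; ring
  · have h1 : |s * (γ / K)| ≤ γ / K := by
      rw [abs_of_nonneg (mul_nonneg hs.1 he.le)]; nlinarith [hs.2]
    have h2 : |s * ξ b| ≤ γ / K := by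
      rw [abs_mul, abs_of_nonneg hs.1]; nlinarith [hs.2, hs.1, hξ b, abs_nonneg (ξ b)]
    rw [add_sub_cancel_left]
    refine (abs_add_le _ _).trans ?_
    rw [abs_mul, abs_mul (s * ξ b)]
    nlinarith [(hb' b p).1, abs_nonneg (χ p * φ b p), abs_nonneg (χ p)]
  · have h1 : |s * (γ / K)| ≤ γ / K := by
      rw [abs_of_nonneg (mul_nonneg hs.1 he.le)]; nlinarith [hs.2]
    have h2 : |s * ξ b| ≤ γ / K := by
      rw [abs_mul, abs_of_nonneg hs.1]; nlinarith [hs.2, hs.1, hξ b, abs_nonneg (ξ b)]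
    rw [grad_lin (hφ b) (hm b) hχ]
    refine (norm_add_le _ _).trans (add_le_add le_rfl ((norm_add_le _ _).trans ?_))
    rw [norm_smul, norm_smul, Real.norm_eq_abs, Real.norm_eq_abs]
    nlinarith [(hb' b p).2, norm_nonneg (M.grad (fun p => χ p * φ b p) p),
      norm_nonneg (M.grad χ p)]

/-- concatenation of two paths -/
theorem concat {f g : ℝ → C → X → ℝ} (hf : ∀ b, JC M.atl univ fun s => f s b)
    (hg : ∀ b, JC M.atl univ fun s => g s b) (h : g 0 = f 1) : ∃ ψ : ℝ → C → X → ℝ,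
    (∀ b, JC M.atl univ fun s => ψ s b) ∧ ψ 0 = f 0 ∧ ψ 1 = g 1 ∧
    ∀ s ∈ Icc (0 : ℝ) 1, ∃ s' ∈ Icc (0 : ℝ) 1, ψ s = f s' ∨ ψ s = g s' := by
  refine ⟨fun s b p => f (min (2 * s) 1) b p + g (max (2 * s - 1) 0) b p - f 1 b p,
    fun b => ?_, ?_, ?_, fun s hs => ?_⟩
  · exact (((hf b).reparam (e := fun s : ℝ => min (2 * s) 1) (by fun_prop)).add
      ((hg b).reparam (e := fun s : ℝ => max (2 * s - 1) 0) (by fun_prop))).sub
      ((hf b).reparam (e := fun _ : ℝ => (1 : ℝ)) continuous_const)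
  · funext b p; norm_num [h]
  · funext b p; norm_num
  · rcases le_total (2 * s) 1 with h1 | h1
    · refine ⟨2 * s, ⟨by linarith [hs.1], h1⟩, Or.inl ?_⟩
      funext b p
      beta_reduce
      rw [min_eq_left h1, max_eq_right (by linarith), h]; ring
    · refine ⟨2 * s - 1, ⟨by linarith, by linarith [hs.2]⟩, Or.inr ?_⟩
      funext b p
      beta_reduce
      rw [min_eq_right h1, max_eq_left (by linarith)]; ring

/-- the slice lies in the band -/
theorem sb_band [MeasurableSpace X] {F φ h : X → ℝ} {δ Λ : ℝ} {𝒰 : Ultrafilter ℕ}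
    {u : ℕ → X → ℝ} {τ s : ℕ → ℝ} (hN : NkD M F φ h δ Λ 𝒰 u τ s) (hφ : Continuous φ) {p : X}
    (hp : p ∈ Sb 𝒰 u) : |φ p| ≤ π / 2 := by
  by_contra hc
  refine hp ?_
  rcases lt_abs.1 (not_le.1 hc) with h1 | h1
  · exact Or.inl ⟨{q | π / 2 < φ q}, (isOpen_lt continuous_const hφ).mem_nhds h1,
      (hN.bar 1).mono fun j hj q hq => lt_of_lt_of_le one_pos ((hj q).1 (le_of_lt hq))⟩
  · refine Or.inr ⟨{q | φ q < -(π / 2)}, (isOpen_lt hφ continuous_const).mem_nhds
      (show φ p < _ by linarith), (hN.bar 1).mono fun j hj q hq => ?_⟩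
    have := (hj q).2 (le_of_lt hq)
    change 0 < -u j q
    linarith

end Crest.Agent.N228.G.Md

end
end

-- ▼ part N228/Nk/Riesz
section

/-!
# Row 228, necks (helper16): Riesz weights valid on the slice and on all graphs

`Probe M m K p L` : `L f` is `-Δ_F f (p)` for some geometry which sees `m` directions of `M`.
-/

set_option autoImplicit false
set_option linter.unusedSectionVars false
open MeasureTheory Set Filter Topology Function Metric
open scoped ContDiff InnerProductSpace RealInnerProductSpace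

noncomputable section

namespace Crest.Agent.N228.Nk

open Crest.Agent.N222 Crest.Agent.N222.Rz

variable {d m : ℕ} {ι : Type} [Fintype ι] [DecidableEq ι] {X : Type} [TopologicalSpace X]
  [MeasurableSpace X]

/-- an abstract `-Δ_F` at the point `p` -/
structure Probe (M : Imm d ι X) (m : ℕ) (K : ℝ) (p : X) (L : (X → ℝ) → ℝ) : Prop where
  add : ∀ f g, M.Sm f → M.Sm g → L (fun q => f q + g q) = L f + L g
  mul : ∀ (c : ℝ) f, M.Sm f → L (fun q => c * f q) = c * L f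
  const : ∀ c : ℝ, L (fun _ => c) = 0
  ker : ∀ (a : ℝ) (y : E ι) (t : ℝ), 0 ≤ a → 4 * (a + 1) + 1 / 4 ≤ 2 * m → 0 < t →
    a * sg M y t p ^ (-a - 1) * (1 / 4 - K * ‖M.x p - y‖) ≤ L (kr M a y t)

theorem Probe.sum {M : Imm d ι X} {K : ℝ} {p : X} {L : (X → ℝ) → ℝ} (h : Probe M m K p L)
    {κ : Type} (s : Finset κ) {f : κ → X → ℝ} (hf : ∀ k, M.Sm (f k)) (c : ℝ) :
    L (fun q => 1 + c * ∑ k ∈ s, f k q) = c * ∑ k ∈ s, L (f k) := by
  have hs : ∀ s : Finset κ, M.Sm fun q => ∑ k ∈ s, f k q := fun s => Imm.sm_sum s fun k _ => hf k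
  have h1 : L (fun q => ∑ k ∈ s, f k q) = ∑ k ∈ s, L (f k) := by
    classical
    induction s using Finset.induction_on with
    | empty => simpa using h.const 0
    | insert k s hk ih =>
      simp only [Finset.sum_insert hk]
      rw [h.add _ _ (hf k) (hs s), ih]
  rw [h.add _ _ (Imm.sm_const _) ((Imm.sm_const c).mul (hs s)), h.const, h.mul _ _ (hs s), h1,
    zero_add]

section Lin

variable {G : Imm d ι X} {F f g : X → ℝ}

theorem lapF_add (hf : G.Sm f) (hg : G.Sm g) (p : X) :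
    G.pre.lapF F (fun q => f q + g q) p = G.pre.lapF F f p + G.pre.lapF F g p := by
  simp only [Imm.lapF_apply, Imm.lap_add hf hg, Imm.gam_apply,
    Imm.D_add (hf.diffAt p) (hg.diffAt p), mul_add, Finset.sum_add_distrib]
  ring

theorem lapF_const_mul (c : ℝ) (hf : G.Sm f) (p : X) :
    G.pre.lapF F (fun q => c * f q) p = c * G.pre.lapF F f p := by
  simp only [Imm.lapF_apply, Imm.lap_const_mul c hf, Imm.gam_apply,
    Imm.D_const_mul c (hf.diffAt p), mul_add, Finset.mul_sum, mul_left_comm c]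

theorem lapF_const (c : ℝ) (p : X) : G.pre.lapF F (fun _ => c) p = 0 := by
  simp [Imm.lapF_apply, Imm.lap_const, Imm.gam_apply, Imm.D_const]

/-- negative powers of a function that behaves like a squared distance -/
theorem lapF_pow {σ : X → ℝ} (hσ : G.Sm σ) {p : X} {a r n K H : ℝ} (h0 : 0 < σ p) (ha : 0 ≤ a)
    (hn : 4 * (a + 1) + 1 / 4 ≤ 2 * n) (hr0 : 0 ≤ r) (hr : r ^ 2 ≤ σ p)
    (hg : ‖G.grad σ p‖ ≤ 2 * r) (hl : 2 * n - 2 * (r * H) ≤ G.pre.lap σ p)
    (hK : 2 * (H + ‖G.grad F p‖) ≤ K) :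
    a * σ p ^ (-a - 1) * (1 / 4 - K * r) ≤ -G.pre.lapF F (fun q => σ q ^ (-a)) p := by
  have h1 : G.pre.lap (fun q => σ q ^ (-a)) p = _ := Imm.lap_comp hσ
    (φ := fun s => s ^ (-a)) (Real.contDiffAt_rpow_const_of_ne h0.ne')
  rw [Real.deriv_rpow_const', deriv_const_mul_field, Real.deriv_rpow_const,
    Real.rpow_sub_one h0.ne' (-a - 1), Imm.gam_self_eq] at h1
  rw [Imm.lapF_apply, h1, Imm.gam_eq_inner, grad_comp (hσ.diffAt p)
    (Real.hasDerivAt_rpow_const (p := -a) (Or.inl h0.ne')), inner_smul_right]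
  have h3 : ‖G.grad σ p‖ ^ 2 / σ p ≤ 4 := by
    rw [div_le_iff₀ h0]
    nlinarith [norm_nonneg (G.grad σ p)]
  have h5 := (abs_le.1 (abs_real_inner_le_norm (G.grad F p) (G.grad σ p))).1
  have h6 := mul_le_mul_of_nonneg_left hg (norm_nonneg (G.grad F p))
  have h7 := mul_le_mul_of_nonneg_right hK hr0
  have h8 := mul_le_mul_of_nonneg_left h3 (by linarith : 0 ≤ a + 1)
  have h9 : 0 ≤ a * σ p ^ (-a - 1) := mul_nonneg ha (Real.rpow_nonneg h0.le _)
  have h10 := mul_le_mul_of_nonneg_left (show 1 / 4 - K * r ≤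
    G.pre.lap σ p + ⟪G.grad F p, G.grad σ p⟫ - (a + 1) * (‖G.grad σ p‖ ^ 2 / σ p) by nlinarith) h9
  refine h10.trans (le_of_eq ?_)
  ring

end Lin

/-- submanifolds of dimension `m` -/
theorem probe_sub {M : Imm d ι X} {Y : Type} [TopologicalSpace Y] [MeasurableSpace Y]
    {N : Imm m ι Y} {j : Y → X} (hj : Continuous j) (hx : ∀ q, N.x q = M.x (j q)) {F : X → ℝ}
    (hF : M.Sm F) {K : ℝ} (q : Y) (hK : 2 * (‖N.Hv q‖ + ‖M.grad F (j q)‖) ≤ K) :
    Probe M m K (j q) fun f => -N.pre.lapF (fun p => F (j p)) (fun p => f (j p)) q := by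
  have loc := Loc.of_cont hj hx
  refine ⟨fun f g hf hg => ?_, fun c f hf => ?_, fun c => ?_, fun a y t ha hm ht => ?_⟩
  · rw [lapF_add (hf.res loc) (hg.res loc), neg_add]
  · rw [lapF_const_mul c (hf.res loc), mul_neg]
  · rw [lapF_const, neg_zero]
  · have := lapF_kr N (F := fun p => F (j p)) ha hm y ht q (K := K) (by
      rw [(loc q).grad (hF.diffAt _)]
      linarith [N.norm_PL_le q (M.grad F (j q))])
    have e1 : kr N a y t = fun p => kr M a y t (j p) := funext fun p => by simp only [kr, sg, hx]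
    simpa only [e1, sg, hx] using this

/-- graphs over a manifold of dimension `m + 1` -/
theorem probe_graph {M : Imm (m + 1) ι X} {u : X → ℝ} (hu : M.Sm u) (F : X → ℝ) {K : ℝ} (p : X)
    (hK : 2 * (‖(WithLp.toLp 2 fun c => (M.gS u).H c p : E (Option ι))‖ + ‖M.grad F p‖) ≤ K) :
    Probe M m K p fun f => -(M.gS u).lapF F f p := by
  have gl : ∀ f, ‖(M.graph u hu).grad f p‖ ≤ ‖M.grad f p‖ := fun f => by
    have := M.gS_gam_le u f p
    rw [← Imm.graph_pre hu, Imm.gam_self_eq, Imm.gam_self_eq] at this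
    exact le_of_sq_le_sq this (norm_nonneg _)
  rw [← Imm.graph_pre hu] at hK ⊢
  refine ⟨fun f g hf hg => ?_, fun c f hf => ?_, fun c => ?_, fun a y t ha hm ht => ?_⟩
  · rw [lapF_add (G := M.graph u hu) hf hg, neg_add]
  · rw [lapF_const_mul (G := M.graph u hu) c hf, mul_neg]
  · rw [lapF_const, neg_zero]
  refine lapF_pow (G := M.graph u hu) (sm_sg M y t) (sg_pos M y ht p) ha hm (norm_nonneg _)
    (le_add_of_nonneg_right (sq_nonneg t)) ((gl _).trans (norm_grad_sg M y t p))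
    (H := ‖(M.graph u hu).Hv p‖) ?_ 
    (le_trans (mul_le_mul_of_nonneg_left (add_le_add le_rfl (gl F)) zero_le_two) hK)
  have hu' : (M.graph u hu).Sm u := hu
  have e1 : (fun q => ‖(M.graph u hu).x q - up 0 y‖ ^ 2 + t ^ 2) =
      fun q => sg M y t q + u q * u q := funext fun q => by
    rw [Imm.graph_x, Imm.gx, up_sub, norm_sq_up, sg]; ring
  have e2 := lap_sg (M.graph u hu) (up 0 y) t p
  unfold sg at e2
  rw [e1, Imm.lap_add (M := M.graph u hu) (sm_sg M y t) (hu'.mul hu'), Imm.lap_mul hu' hu',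
    Imm.graph_x, Imm.gx, up_sub, ← up_down ((M.graph u hu).Hv p), inner_up] at e2
  have e3 : (M.graph u hu).Hv p none = (M.graph u hu).pre.lap u p := rfl
  have e4 : (M.graph u hu).pre.gam u u p ≤ 1 := by
    rw [Imm.graph_pre, Imm.gS_gam_u]; nlinarith [sq_nonneg (M.vv u p)]
  have e5 := (abs_le.1 ((abs_real_inner_le_norm (M.x p - y) (down ((M.graph u hu).Hv p))).trans
    (mul_le_mul_of_nonneg_left (norm_down_le _) (norm_nonneg _)))).1
  rw [e3] at e2
  push_cast at e2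
  linarith

variable [T2Space X] [CompactSpace X]

set_option maxHeartbeats 400000 in
/-- the weight at one scale -/
theorem riesz1 {M : Imm d ι X} {B : Set X} (hnets : M.Nets m B) {K : ℝ} (hK0 : 0 < K) :
    ∃ C c : ℝ, 0 < c ∧ ∀ δ V0 t0 t2 : ℝ, 0 < δ → 0 < t0 →
    0 < t2 → ∃ (t1 : ℝ) (w χ : X → ℝ), 0 < t1 ∧ t1 ≤ t2 ∧ M.Sm w ∧ M.Sm χ ∧ (∀ p, 1 ≤ w p) ∧
      Disjoint (tsupport χ) B ∧ (∀ p, 0 ≤ χ p ∧ χ p ≤ 1) ∧ (∀ p, √(M.pre.gam χ χ p) ≤ C / t1) ∧
      (∀ p, χ p ≠ 1 ∨ M.pre.gam χ χ p ≠ 0 → c / t1 ^ (7 / 4 : ℝ) ≤ w p) ∧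
      (∀ p, 2 ≤ w p → ∃ q ∈ B, ‖M.x p - M.x q‖ ≤ t0) ∧
      ∀ p L, Probe M m K p L → -δ * w p ≤ L w ∧ (2 ≤ w p → V0 * w p ≤ L w) := by
  rcases le_or_gt m 3 with hm | hm
  · have hB := empty_of_nets hnets hm
    refine ⟨0, 1, one_pos, fun δ V0 t0 t2 hδ _ ht2 => ⟨t2, fun _ => 1, fun _ => 1, ht2, le_rfl,
      Imm.sm_const _, Imm.sm_const _, fun _ => le_rfl, by simp [hB], fun _ => by simp, fun p => ?_,
      fun p hp => ?_, fun p hp => by norm_num at hp,
      fun q L hL => ⟨?_, fun hp => by norm_num at hp⟩⟩⟩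
    · simp [Imm.gam_apply, Imm.D_const]
    · simp [Imm.gam_apply, Imm.D_const] at hp
    · simp [hL.const, hδ.le]
  have hm' : (4 : ℝ) ≤ m := by exact_mod_cast hm
  set a : ℝ := (m - 2 - 1 / 8) / 2 with ha
  have ha0 : 0 < a := by rw [ha]; linarith
  obtain ⟨L, hL0, hL⟩ := Imm.exists_bound M.continuous_x
  obtain ⟨Cn, hn⟩ := hnets
  obtain ⟨Cc, hCc⟩ := cutoff (M := M)
  set C' := a * ((1 / (8 * K)) ^ 2) ^ (-a - 1) * (K * (L + L)) with hC'
  have hC0 : 0 < C' := by positivity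
  have hc0 : (0 : ℝ) < 2 ^ (-a) := by positivity
  refine ⟨Cc * a, 2 ^ (-a) / 4, by positivity, fun δ V0 t0 t2 hδ ht0 ht2 => ?_⟩
  set θ := min ((1 / (8 * K)) ^ 2) (a / (32 * (|V0| + 1))) with hθ
  have hθ0 : 0 < θ := by positivity
  obtain ⟨t, ht, htt, ht1, hμ⟩ := exists_small (C := Cn) ht2 (show 0 < min (min (min δ 1 / C')
    (1 / (4 * θ ^ (-a)))) (1 / (2 * (t0 ^ 2) ^ (-a))) by positivity)
  obtain ⟨s, hsB, hcard, hnet⟩ := hn t ht ht1
  set κ := t ^ (2 * a - 7 / 4) with hκ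
  have hκ0 : 0 < κ := by positivity
  replace hμ : κ * s.card ≤ _ := le_trans (by
    have e1 : κ * t ^ 4 = t ^ (1 / 8 : ℝ) * t ^ m := by
      rw [hκ, ← Real.rpow_natCast, ← Real.rpow_natCast, ← Real.rpow_add ht, ← Real.rpow_add ht, ha]
      congr 1; push_cast; ring
    refine le_of_mul_le_mul_right ?_ (pow_pos ht m)
    rw [mul_assoc Cn, ← e1]
    nlinarith [mul_le_mul_of_nonneg_left hcard hκ0.le]) hμ
  simp only [le_min_iff] at hμ
  obtain ⟨⟨hμ1, hμ2⟩, hμ3⟩ := hμ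
  rw [le_div_iff₀ hC0, le_min_iff] at hμ1
  rw [le_div_iff₀ (by positivity)] at hμ2 hμ3
  set w : X → ℝ := fun p => 1 + κ * ∑ q ∈ s, kr M a (M.x q) t p with hw
  have hk := fun q => sm_kr M a (M.x q) ht
  have hws : M.Sm w := (Imm.sm_const _).add ((Imm.sm_const _).mul (Imm.sm_sum s fun q _ => hk q))
  have hsum : ∀ p, 0 ≤ κ * ∑ q ∈ s, kr M a (M.x q) t p := fun p =>
    mul_nonneg hκ0.le (Finset.sum_nonneg fun q _ => (kr_pos M a _ ht p).le)
  have hw1 : ∀ p, 1 ≤ w p := fun p => le_add_of_nonneg_right (hsum p)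
  have ht7 : 0 < t ^ (7 / 4 : ℝ) := by positivity
  obtain ⟨χ, h1, h2, h3, h4, h5⟩ := hCc w (2 * t ^ (7 / 4 : ℝ) / 2 ^ (-a)) (a / t) hws
    (by positivity) (by positivity) (fun p => zero_le_one.trans (hw1 p)) fun p => by
      rw [hw, grad_sum s hk, norm_smul, Real.norm_of_nonneg hκ0.le]
      have := (norm_sum_le _ _).trans
        (Finset.sum_le_sum fun q (_ : q ∈ s) => norm_grad_kr M ha0.le (M.x q) ht p)
      rw [← Finset.mul_sum] at this
      have h6 : 0 ≤ a / t := by positivity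
      nlinarith [mul_le_mul_of_nonneg_left this hκ0.le]
  refine ⟨t, w, χ, ht, htt, hws, h1, hw1, disjoint_left.2 fun p hp hpB => ?_, h3,
    fun p => by rw [mul_div_assoc]; exact h4 p, fun p hp => ?_, fun p hp => ?_,
    fun q 𝓛 h𝓛 => ?_⟩
  · obtain ⟨q, hq, hpq⟩ := hnet p hpB
    have h6 : (2 * t ^ 2) ^ (-a) ≤ kr M a (M.x q) t p :=
      Real.rpow_le_rpow_of_nonpos (sg_pos M _ ht p) (by
        unfold sg; linarith [pow_le_pow_left₀ (norm_nonneg _) hpq 2]) (by linarith)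
    have h7 := h6.trans (Finset.single_le_sum (f := fun q => kr M a (M.x q) t p)
      (fun q _ => (kr_pos M a _ ht p).le) hq)
    have h8 : t ^ (7 / 4 : ℝ) * (κ * (2 * t ^ 2) ^ (-a)) = 2 ^ (-a) := by
      rw [Real.mul_rpow two_pos.le (by positivity), ← Real.rpow_natCast, ← Real.rpow_mul ht.le, hκ,
        mul_left_comm (t ^ (2 * a - 7 / 4)), mul_left_comm, ← Real.rpow_add ht, ← Real.rpow_add ht]
      rw [show (7 / 4 + (2 * a - 7 / 4 + (2 : ℕ) * -a) : ℝ) = 0 by push_cast; ring]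
      simp
    have h9 := h2 hp
    rw [mem_ofPred_eq, div_mul_eq_mul_div, div_le_one hc0, hw] at h9
    nlinarith [mul_le_mul_of_nonneg_left (mul_le_mul_of_nonneg_left h7 hκ0.le) ht7.le]
  · have h6 := h5 p hp
    rw [div_mul_eq_mul_div, le_div_iff₀ hc0] at h6
    rw [div_le_iff₀ ht7]
    linarith
  · by_contra hc
    push Not at hc
    have h6 : ∑ q ∈ s, kr M a (M.x q) t p ≤ s.card • (t0 ^ 2) ^ (-a) :=
      Finset.sum_le_card_nsmul _ _ _ fun q hq => Real.rpow_le_rpow_of_nonpos (by positivity) (by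
        unfold sg
        linarith [pow_le_pow_left₀ ht0.le (hc q (hsB q hq)).le 2, sq_nonneg t]) (by linarith)
    rw [nsmul_eq_mul] at h6
    simp only [hw] at hp
    nlinarith [mul_le_mul_of_nonneg_left h6 hκ0.le]
  · have hT := fun q' : X => term (r := ‖M.x q - M.x q'‖) (D := L + L) ha0 hK0 (norm_nonneg _)
      (norm_sub_le_of_le (hL _) (hL _)) (sg_pos M (M.x q') ht q)
      (le_add_of_nonneg_right (sq_nonneg t)) hθ0 (min_le_left _ _)
    have hP := fun q' : X => h𝓛.ker a (M.x q') t ha0.le (by rw [ha]; linarith) ht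
    rw [show 𝓛 w = _ from h𝓛.sum s hk κ]
    constructor
    · have h6 := Finset.card_nsmul_le_sum s _ _ fun q' _ => (hT q').1.trans (hP q')
      rw [nsmul_eq_mul] at h6
      nlinarith [mul_le_mul_of_nonneg_left h6 hκ0.le, hw1 q, hμ1.1]
    · intro h2w
      have h6 := Finset.sum_le_sum fun q' (_ : q' ∈ s) => (hT q').2.trans (hP q')
      rw [Finset.sum_sub_distrib, ← Finset.mul_sum, Finset.sum_sub_distrib, Finset.sum_const,
        Finset.sum_const, nsmul_eq_mul, nsmul_eq_mul] at h6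
      have h7 : 4 * (|V0| + 1) ≤ a / (8 * θ) := by
        have := min_le_right ((1 / (8 * K)) ^ 2) (a / (32 * (|V0| + 1)))
        rw [← hθ, le_div_iff₀ (by positivity)] at this
        rw [le_div_iff₀ (by positivity)]
        linarith
      have h8 : w q = 1 + κ * ∑ q' ∈ s, sg M (M.x q') t q ^ (-a) := rfl
      refine le_trans ?_ (mul_le_mul_of_nonneg_left h6 hκ0.le)
      have h9 : 3 / 8 * w q ≤ κ * (∑ q' ∈ s, sg M (M.x q') t q ^ (-a) - s.card * θ ^ (-a)) := by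
        nlinarith
      have h10 := mul_le_mul h7 h9 (by linarith) (by positivity)
      have h11 := mul_le_mul_of_nonneg_right (le_abs_self V0) (by linarith : 0 ≤ w q)
      nlinarith [hμ1.2, mul_nonneg (abs_nonneg V0) (by linarith : 0 ≤ w q)]

/-- partial sums of weights -/
theorem riesz_ind {M : Imm d ι X} {B : Set X} (hB : IsClosed B) (hM : Injective M.x)
    {K C c δ V0 t0 k0 : ℝ} {g : ℝ → ℝ} (ht0 : 0 < t0) (hg : ∀ k, 0 < g k) (hδ : 0 < δ) (hV : 0 ≤ V0)
    (H : ∀ t0 t2 : ℝ, 0 < t0 → 0 < t2 → ∃ (t1 : ℝ) (w χ : X → ℝ), 0 < t1 ∧ t1 ≤ t2 ∧ M.Sm w ∧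
      M.Sm χ ∧ (∀ p, 1 ≤ w p) ∧ Disjoint (tsupport χ) B ∧ (∀ p, 0 ≤ χ p ∧ χ p ≤ 1) ∧
      (∀ p, √(M.pre.gam χ χ p) ≤ C / t1) ∧
      (∀ p, χ p ≠ 1 ∨ M.pre.gam χ χ p ≠ 0 → c / t1 ^ (7 / 4 : ℝ) ≤ w p) ∧
      (∀ p, 2 ≤ w p → ∃ q ∈ B, ‖M.x p - M.x q‖ ≤ t0) ∧
      ∀ p L, Probe M m K p L → -δ * w p ≤ L w ∧ (2 ≤ w p → V0 * w p ≤ L w)) (D n : ℕ) :
    ∃ (W : X → ℝ) (k t : ℕ → ℝ) (χ : ℕ → X → ℝ) (ρ : ℝ), 0 < ρ ∧ ρ ≤ t0 ∧ M.Sm W ∧
      (∀ p, 1 ≤ W p) ∧ k 0 = k0 ∧ (∀ p, 1 + n < W p → ∃ q ∈ B, ‖M.x p - M.x q‖ ≤ t0) ∧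
      (∀ p L, Probe M m K p L → -(2 * n * δ) ≤ L W ∧ V0 * (W p - 1 - n) - 2 * n * δ ≤ L W) ∧
      ∀ i < n, k i ≤ k (i + 1) ∧ 0 < t i ∧ t i ≤ g (k i) ∧ M.Sm (χ i) ∧
        (∀ p, 0 ≤ χ i p ∧ χ i p ≤ 1) ∧ (∀ p, √(M.pre.gam (χ i) (χ i) p) ≤ C / t i) ∧
        (∀ p, χ i p ≠ 1 ∨ M.pre.gam (χ i) (χ i) p ≠ 0 → c / t i ^ (7 / 4 : ℝ) ≤ W p) ∧
        (∀ p, k (i + 1) ≤ W p + (D - n) → p ∉ tsupport (χ i)) ∧
        ∀ p, ∀ q ∈ B, ‖M.x p - M.x q‖ ≤ ρ → p ∉ tsupport (χ i) := by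
  induction n with
  | zero =>
    exact ⟨fun _ => 1, fun _ => k0, fun _ => 1, fun _ _ => 1, t0, ht0, le_rfl, Imm.sm_const _,
      fun _ => le_rfl, rfl, fun p hp => by simp at hp, fun p L hL => by simp [hL.const],
      fun i hi => absurd hi (Nat.not_lt_zero i)⟩
  | succ n ih =>
    obtain ⟨W, k, t, χ, ρ, hρ, hρt, hW, hW1, hk0, hnear, hL, hsh⟩ := ih
    obtain ⟨t1, w, χ1, a1, a2, a3, a4, a5, a6, a7, a8, a9, a10, a11⟩ := H ρ (g (k n)) hρ (hg _)
    have sW : M.Sm fun p => W p + (w p + -1) := hW.add (a3.add (Imm.sm_const _))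
    obtain ⟨S, -, hS⟩ := Imm.exists_bound sW.continuous
    obtain ⟨ρ1, hρ1, hsep⟩ := Imm.exists_lebesgue hM hB.isCompact (fun _ : Unit => (tsupport χ1)ᶜ)
      (fun _ => (isClosed_tsupport _).isOpen_compl)
      fun q hq => mem_iUnion.2 ⟨(), disjoint_right.1 a6 hq⟩
    refine ⟨fun p => W p + (w p + -1), update k (n + 1) (max (k n) (S + D + 1)), update t n t1,
      update χ n χ1, min ρ (ρ1 / 2), by positivity, (min_le_left _ _).trans hρt, sW,
      fun p => by linarith [hW1 p, a5 p], by simpa using hk0, fun p hp => ?_, fun p L h => ?_,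
      fun i hi => ?_⟩
    · rcases le_or_gt 2 (w p) with h | h
      · obtain ⟨q, hq, h⟩ := a10 p h
        exact ⟨q, hq, h.trans hρt⟩
      · exact hnear p (by push_cast at hp; linarith)
    · rw [h.add _ _ hW (a3.add (Imm.sm_const _)), h.add _ _ a3 (Imm.sm_const _), h.const]
      obtain ⟨b1, b2⟩ := hL p L h
      obtain ⟨b3, b4⟩ := a11 p L h
      push_cast
      rcases le_or_gt 2 (w p) with h2 | h2
      · constructor <;> nlinarith [b4 h2]
      · constructor <;> nlinarith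
    rcases (Nat.lt_succ_iff.1 hi).lt_or_eq with hi | rfl
    · obtain ⟨b1, b2, b3, b4, b5, b6, b7, b8, b9⟩ := hsh i hi
      rw [update_of_ne (by omega), update_of_ne (by omega), update_of_ne hi.ne, update_of_ne hi.ne]
      refine ⟨b1, b2, b3, b4, b5, b6, fun p hp => (b7 p hp).trans (by linarith [a5 p]),
        fun p hp => ?_, fun p q hq h => b9 p q hq (h.trans (min_le_left _ _))⟩
      rcases le_or_gt 2 (w p) with h | h
      · obtain ⟨q, hq, h⟩ := a10 p h
        exact b9 p q hq h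
      · exact b8 p (by push_cast at hp; linarith)
    · rw [update_of_ne (by omega), update_self, update_self, update_self]
      refine ⟨le_max_left _ _, a1, a2, a4, a7, a8, fun p hp => (a9 p hp).trans
        (by linarith [hW1 p]), fun p hp => ?_, fun p q hq h => ?_⟩
      · have h1 := (le_abs_self _).trans (hS p)
        have h2 := (le_max_right _ _).trans hp
        have h3 : (0 : ℝ) ≤ i := Nat.cast_nonneg i
        push_cast at h2
        linarith
      · obtain ⟨-, h1⟩ := hsep q hq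
        exact h1 p (by linarith [h.trans (min_le_right _ _)])

/-- **The multiscale weight**: `D` nested shells.  Shell `i` starts at the level `k i` of `W`, its
cut-off `χ i` has the scale `t i ≤ g (k i)`, and the next shell starts where `χ i = 0`. -/
theorem riesz_multi {M : Imm d ι X} (hM : Injective M.x) {B : Set X} (hB : IsClosed B)
    (hnets : M.Nets m B) {K : ℝ} (hK0 : 0 < K) : ∃ C c : ℝ, 0 < c ∧
    ∀ (D : ℕ) (δ V0 t0 k0 : ℝ) (g : ℝ → ℝ), 0 < δ → 0 < t0 → (∀ k, 0 < g k) →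
    ∃ (W : X → ℝ) (k t : ℕ → ℝ) (χ : ℕ → X → ℝ), M.Sm W ∧ (∀ p, 1 ≤ W p) ∧ k 0 = k0 ∧
      (∀ p, 2 * (D + 1) ≤ W p → ∃ q ∈ B, ‖M.x p - M.x q‖ ≤ t0) ∧
      (∀ p L, Probe M m K p L → -δ * W p ≤ L W ∧ (2 * (D + 1) ≤ W p → V0 * W p ≤ L W)) ∧
      ∀ i < D, k i ≤ k (i + 1) ∧ 0 < t i ∧ t i ≤ g (k i) ∧ M.Sm (χ i) ∧
        Disjoint (tsupport (χ i)) B ∧
        (∀ p, 0 ≤ χ i p ∧ χ i p ≤ 1) ∧ (∀ p, √(M.pre.gam (χ i) (χ i) p) ≤ C / t i) ∧
        (∀ p, χ i p ≠ 1 ∨ M.pre.gam (χ i) (χ i) p ≠ 0 → c / t i ^ (7 / 4 : ℝ) ≤ W p) ∧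
        ∀ p, k (i + 1) ≤ W p → p ∉ tsupport (χ i) := by
  obtain ⟨C, c, hc, H⟩ := riesz1 hnets hK0
  refine ⟨C, c, hc, fun D δ V0 t0 k0 g hδ ht0 hg => ?_⟩
  have hD : (0 : ℝ) ≤ D := Nat.cast_nonneg D
  obtain ⟨W, k, t, χ, ρ, hρ, -, hW, hW1, hk0, hnear, hL, hsh⟩ := riesz_ind (k0 := k0) hB hM ht0 hg
    (δ := δ / (2 * (D + 1))) (V0 := 2 * (|V0| + δ)) (by positivity) (by positivity)
    (fun t0 t2 h0 h2 => H _ _ t0 t2 (by positivity) h0 h2) D D
  have e : 2 * D * (δ / (2 * (D + 1))) ≤ δ := by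
    rw [← mul_div_assoc, div_le_iff₀ (by positivity)]; nlinarith
  refine ⟨W, k, t, χ, hW, hW1, hk0, fun p hp => hnear p (by linarith), fun p L h => ?_,
    fun i hi => ?_⟩
  · obtain ⟨b1, b2⟩ := hL p L h
    have := hW1 p
    refine ⟨by nlinarith, fun hp => ?_⟩
    nlinarith [le_abs_self V0, abs_nonneg V0]
  · obtain ⟨b1, b2, b3, b4, b5, b6, b7, b8, b9⟩ := hsh i hi
    exact ⟨b1, b2, b3, b4, disjoint_right.2 fun q hq => b9 q q hq (by simpa using hρ.le), b5, b6,
      b7, fun p hp => b8 p (by simpa using hp)⟩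

/-- one constant for the slice and for all admissible graphs -/
theorem exists_probe [SecondCountableTopology X] [BorelSpace X] {M : Imm (m + 1) ι X}
    (hM : Injective M.x) {F G : X → ℝ} (hF : M.Sm F) (Λ : ℝ) {S B : Set X} {N : Imm m ι ↥(S \ B)}
    (hS : Slice M F G S B N) : ∃ K : ℝ, 0 < K ∧
      (∀ q : ↥(S \ B), Probe M m K q fun f => -N.pre.lapF (fun p => F p) (fun p => f p) q) ∧
      ∀ u, M.Adm F Λ u → ∀ p, Probe M m K p fun f => -(M.gS u).lapF F f p := by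
  obtain ⟨CH, hH⟩ := hS.H
  obtain ⟨CF, hCF0, hCF⟩ := Imm.exists_bound hF.grad.continuous
  obtain ⟨C, hC0, hC⟩ := sheet (m + 1) ι X M F hM hF Λ
  refine ⟨2 * (|CH| + C + CF), by positivity, fun q => probe_sub continuous_subtype_val hS.x hF q
    (by linarith [hH q, le_abs_self CH, hCF q]), fun u hu p => probe_graph hu.sm F p ?_⟩
  linarith [(hC u hu).H p, abs_nonneg CH, hCF p]

end Crest.Agent.N228.Nk

end
end

-- ▼ part N228/G/Mid
section

/-!
# Row 228, block G, MID (helper32): shift, weight, boost, slice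
-/

set_option autoImplicit false
open MeasureTheory Set Filter Topology Function Metric Real
open scoped ContDiff InnerProductSpace RealInnerProductSpace
open Crest.Agent.N222

noncomputable section

namespace Crest.Agent.N228.G

open Crest.Agent.N228.J (JC)

open Md in
/-- **MID** -/
theorem mid (hG : GenStmt) (hB : BoostStmt) (hP : ProjStmt) : MidStmt := by
  intro m ι _ _ X _ _ _ _ _ _ C _ _ M A η r μ ℓ φ hctx U c ρ F γ k Λ 𝒰 u τ s _ hled hρ hdat hU hcU
  have hF := hdat.smF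
  have hγ := hdat.pos
  have hseq := hdat.nk.seq
  have hh : M.Sm fun p => k (φ c p) := hseq.smh
  have hηc := hctx.eta c
  have hμ := hctx.mu
  have hrc : η c ≤ r c := hled.2.1.trans hρ
  obtain ⟨N, hN, hSl⟩ := wLim m ι X M F _ Λ 𝒰 u τ s hctx.inj hF hseq
  refine ⟨N, hN, ?_⟩
  have hδ : 0 < γ / 8 := by positivity
  have hgh : ∀ p, M.grad (fun p => k (φ c p)) p = deriv k (φ c p) • M.grad (φ c) p := fun p =>
    grad_comp (hctx.sm c) ((hdat.smk.differentiable (by simp)) _).hasDerivAt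
  -- the potential on the slice
  obtain ⟨G, hGs, hGl⟩ := Gr.exists_sm_le M (V := fun p => M.pre.EF F p + k (φ c p) ^ 2 -
    2 * ‖M.grad (fun p => k (φ c p)) p‖) ((hF.EF.continuous.add (hh.continuous.pow 2)).sub
      (continuous_const.mul hh.grad.continuous.norm)) hδ
  have hS : Slice M F G (Sb 𝒰 u) (M.Bad 𝒰 u) N := hSl G hGs.continuous fun q => by
    have h1 : √(M.pre.gam (fun p => k (φ c p)) (fun p => k (φ c p)) q -
        N.pre.gam (fun q => k (φ c q)) (fun q => k (φ c q)) q) ≤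
        ‖M.grad (fun p => k (φ c p)) q‖ := by
      rw [sqrt_le_left (norm_nonneg _), ← Imm.gam_self_eq]
      linarith [Imm.gam_self_nonneg (M := N) (fun q => k (φ c q)) q]
    linarith [(hGl q).2]
  obtain ⟨K, hK, hpN, hpG⟩ := Nk.exists_probe hctx.inj hF Λ hS
  -- the shift
  have hband : IsCompact {p | |φ c p| ≤ π / 2} :=
    (isClosed_le (hctx.sm c).continuous.abs continuous_const).isCompact
  obtain ⟨χU, hχU, hχs, hχ01, hχ1⟩ := M.exists_bump hband hU hcU
  have hpk : ∀ b, b ≠ c → park φ c b = φ b := fun b hb => update_of_ne hb _ _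
  have hpc : park φ c c = fun _ => π := update_self _ _ _
  have hph : ∀ b, M.Sm (park φ c b) := fun b => by
    by_cases hb : b = c
    · rw [hb, hpc]; exact Imm.sm_const _
    · rw [hpk b hb]; exact hctx.sm b
  obtain ⟨e, he, hsh⟩ := shift hph hχU.sm (fun p => (hχ01 p).1) hγ
  obtain ⟨ξ, hξ, η0, t0, hη0, ht0, hgen⟩ := hG (m + 1) ι X M ‹_› hctx.inj C m (M.Bad 𝒰 u)
    (fun b p => (1 + e) * park φ c b p) hS.closed hS.nets
    (fun b => (Imm.sm_const _).mul (hph b)) e he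
  obtain ⟨f, fj, f0, f1, fs⟩ := hsh ξ hξ
  have fsm : ∀ s b, M.Sm (f s b) := fun s b => (fj b).sm rfl s
  obtain ⟨O, hO⟩ : ∃ O, O = interior {p | χU p = 1} := ⟨_, rfl⟩
  have hO1 : ∀ p ∈ O, χU p = 1 := fun p hp => by
    rw [hO] at hp; exact interior_subset (s := {p | χU p = 1}) hp
  have hOo : IsOpen O := hO ▸ isOpen_interior
  have hSb : ∀ p ∈ Sb 𝒰 u, |φ c p| ≤ π / 2 := fun p hp =>
    sb_band hdat.nk (hctx.sm c).continuous hp
  have hSO : Sb 𝒰 u ⊆ O := fun p hp =>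
    hO ▸ mem_interior_iff_mem_nhds.2 (mem_nhdsSet_iff_forall.1 hχ1 p (hSb p hp))
  have hOU : O ⊆ U := fun p hp =>
    hχs (subset_tsupport _ (by rw [mem_support, hO1 p hp]; exact one_ne_zero))
  obtain ⟨t1, ht1, hleb⟩ := Imm.exists_lebesgue hctx.inj hS.closed.isCompact (fun _ : Unit => O)
    (fun _ => hOo) fun p hp => mem_iUnion.2 ⟨(), hSO (hS.sub hp)⟩
  have ht : 0 < min t0 (t1 / 2) := by positivity
  have hnear : ∀ p, ∀ q ∈ M.Bad 𝒰 u, ‖M.x p - M.x q‖ ≤ min t0 (t1 / 2) → p ∈ O :=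
    fun p q hq h => (hleb q hq).elim fun _ h' => h' p (by linarith [min_le_right t0 (t1 / 2)])
  -- the weight and the boost
  obtain ⟨Vm, -, hVm⟩ := Imm.exists_bound (f := fun p => M.pre.EF F p + k (φ c p) ^ 2)
    (hF.EF.continuous.add (hh.continuous.pow 2))
  replace hVm : ∀ p, M.pre.EF F p + k (φ c p) ^ 2 ≤ Vm := fun p => (le_abs_self _).trans (hVm p)
  obtain ⟨Cχ, c0, hc0, hR⟩ := Nk.riesz_multi hctx.inj hS.closed hS.nets hK
  obtain ⟨w0, hw0⟩ : ∃ w0 : ℝ, w0 = 2 * ((Fintype.card C : ℝ) + 1) := ⟨_, rfl⟩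
  obtain ⟨V0, g, hV0, hg, hbo⟩ := hB (m + 1) ι X M ‹_› C (f 1) η η0 Vm Cχ c0 w0 (Fintype.card C)
    (fun b => (Fintype.equivFin C b : ℕ)) (fsm 1) hctx.eta hη0 hc0
    (by have : (0 : ℝ) ≤ Fintype.card C := Nat.cast_nonneg _
        linarith)
    (Fin.val_injective.comp (Equiv.injective _)) fun b => Fin.is_lt _
  obtain ⟨W, kk, t, χ, hW, hW1, hk0, hWB, hWL, hi⟩ :=
    hR (Fintype.card C) (γ / 8) V0 (min t0 (t1 / 2)) w0 g hδ ht hg
  rw [← hw0] at hWB hWL
  have hW0 : ∀ p, 0 < W p := fun p => one_pos.trans_le (hW1 p)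
  have hZ : ∀ p L, Nk.Probe M m K p L → -(γ / 8) ≤ L W / W p ∧ (w0 ≤ W p → V0 ≤ L W / W p) :=
    fun p L hL => ⟨(le_div_iff₀ (hW0 p)).2 (hWL p L hL).1,
      fun h => (le_div_iff₀ (hW0 p)).2 ((hWL p L hL).2 h)⟩
  obtain ⟨β, βj, β0, β1, βs⟩ := hbo W kk t χ hW hW1 hk0 fun i h => by
    obtain ⟨a1, a2, a3, a4, -, a5⟩ := hi i h
    exact ⟨a1, a2, a3, a4, a5⟩
  obtain ⟨ψ, ψj, ψ0, ψ1, ψs⟩ := concat fj βj β0
  have ψsm : ∀ s b, M.Sm (ψ s b) := fun s b => (ψj b).sm rfl s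
  have h01 : (1 : ℝ) ∈ Icc (0 : ℝ) 1 := ⟨zero_le_one, le_rfl⟩
  have key : ∀ s ∈ Icc (0 : ℝ) 1, ∃ s' ∈ Icc (0 : ℝ) 1, Shr (f s') (ψ s) ∧
      (∀ p, W p < w0 → ∀ b, ψ s b p = f s' b p) ∧
      ∀ (p : X) (P : E ι →L[ℝ] E ι) (r : C → ℝ) (V Z : ℝ), ‖P‖ ≤ 1 → (∀ b, 0 ≤ r b) → V ≤ Vm →
        (-(γ / 8) ≤ Z ∧ (w0 ≤ W p → V0 ≤ Z)) →
        Ok η r V (ev (f s') p) (fun b => ‖P (M.grad (f s' b) p)‖) →
        Ok η r (V + (Z + γ / 8 + ‖P (M.grad (fun q => log (W q)) p)‖ ^ 2 / 2)) (ev (ψ s) p)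
          fun b => ‖P (M.grad (ψ s b) p)‖ := by
    intro s hs
    obtain ⟨s', hs', h | h⟩ := ψs s hs
    · rw [h]
      refine ⟨s', hs', fun _ _ => ⟨id, id⟩, fun _ _ _ => rfl, fun p P r V Z _ _ _ hZ h => ?_⟩
      exact ok_mono h (by nlinarith [hZ.1, sq_nonneg ‖P (M.grad (fun q => log (W q)) p)‖])
    · rw [h]
      obtain ⟨b1, b2, b3⟩ := βs s' hs'
      refine ⟨1, h01, b1, b2, fun p P r V Z hP hr hV hZ h => ?_⟩
      by_cases hp : W p < w0
      · have e1 : ev (β s') p = ev (f 1) p := funext (b2 p hp)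
        have e2 : (fun b => ‖P (M.grad (β s' b) p)‖) = fun b => ‖P (M.grad (f 1 b) p)‖ :=
          funext fun b => by
            rw [grad_congr (g := f 1 b) (mem_of_superset
              ((isOpen_lt hW.continuous continuous_const).mem_nhds hp) fun q hq => b2 q hq b)]
        rw [e1, e2]
        exact ok_mono h (by nlinarith [hZ.1, sq_nonneg ‖P (M.grad (fun q => log (W q)) p)‖])
      · exact ok_mono (b3 p P r V hP hr hV h) (by linarith [hZ.2 (not_lt.1 hp)])
  have hn : ∀ s ∈ Icc (0 : ℝ) 1, ∀ (p : X) (P : E ι →L[ℝ] E ι), ‖P‖ ≤ 1 → ∀ b, b ≠ c →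
      |ev (f s) p b - ev φ p b| ≤ γ ∧ ‖P (M.grad (f s b) p)‖ ≤ gr M φ p b + γ :=
    fun s hs p P hP b hb => by
      obtain ⟨-, h1, h2⟩ := (fs s hs).2 b p
      rw [hpk b hb] at h1 h2
      exact ⟨h1, ((P.le_of_opNorm_le hP _).trans_eq (one_mul _)).trans h2⟩
  have hc : ∀ s ∈ Icc (0 : ℝ) 1, ∀ p, π / 2 < |ev (f s) p c| := fun s hs p =>
    (((fs s hs).1 c p).1 (by rw [hpc]; linarith [pi_pos])).trans_le (le_abs_self _)
  -- constants
  obtain ⟨b0, hb0, hb1, hb2, hb3⟩ : ∃ b0 : ℝ, 0 < b0 ∧ b0 ≤ √(η c) / 8 ∧ b0 ≤ γ / 8 ∧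
      b0 ≤ 1 / 8 := ⟨min (√(η c) / 8) (min (γ / 8) (1 / 8)), by positivity, min_le_left _ _,
    (min_le_right _ _).trans (min_le_left _ _), (min_le_right _ _).trans (min_le_right _ _)⟩
  have hL : ∀ q, Loc N M Subtype.val q := Loc.of_cont continuous_subtype_val hN.x
  have nF : N.Sm fun q => F q := hF.res hL
  have nG : N.Sm fun q => G q := hGs.res hL
  have nW : N.Sm fun q => W q := hW.res hL
  refine ⟨b0 / 2, W, ψ, fun q => G q - N.pre.lapF (fun q => F q) (fun q => W q) q / W q +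
    N.pre.gam (fun q => W q) (fun q => W q) q / (2 * W q ^ 2),
    (⋃ i ∈ Finset.range (Fintype.card C), tsupport (χ i))ᶜ ∩
      ⋃ q ∈ M.Bad 𝒰 u, {p | ‖M.x p - M.x q‖ < min t0 (t1 / 2)}, O, half_pos hb0, hW, hW0, ψj,
    ψ0.trans f0, fun s hs b p => ?_, fun s hs p hp b => ?_, fun j hu s hs p hp a e' hae => ?_, ?_,
    weight m ι _ N _ _ _ nF nG nW (fun q => hW0 q) hS.form, fun q hq => ?_, ?_, fun p hp => ?_,
    fun p hp => ?_, hOo, hSO, hOU, fun p hp b hb => ?_⟩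
  · obtain ⟨s', hs', k1, -⟩ := key s hs
    exact shr1_trans ((fs s' hs').1 b p) (k1 b p)
  · obtain ⟨s', hs', -, k2, -⟩ := key s hs
    have h1 : W p < w0 := not_le.1 fun h => by
      obtain ⟨q, hq, h⟩ := hWB p h
      exact hp (hOU (hnear p q hq h))
    rw [k2 p h1, ψ0, f0]
    exact ((fs s' hs').2 b p).1 (image_eq_zero_of_notMem_tsupport fun h => hp (hχs h))
  · -- the graphs
    obtain ⟨s', hs', k1, -, k3⟩ := key s hs
    obtain ⟨-, P, hP1, hP2⟩ := hP (m + 1) ι X M (u j) hu p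
    have hgr : gr (M.graph (u j) hu) (ψ s) p = fun b => ‖P (M.grad (ψ s b) p)‖ :=
      funext fun b => (hP2 _).1
    have hr' : ∀ b, 0 ≤ update r c (r c - η c) b := fun b => by
      by_cases hb : b = c
      · rw [hb, update_self]; linarith
      · rw [update_of_ne hb]; exact hctx.res b
    rw [hgr]
    refine gph_pt (hdat.spl p hp) hγ.le hrc (d1 := |M.pre.dir (M.Xf (u j)) (φ c) p|)
      (d2 := ‖P (M.grad (φ c) p)‖) (abs_nonneg _) (norm_nonneg _)
      (by rw [sq_abs]; exact (hP2 _).2.le) (hn s' hs' p P hP1) (hc s' hs' p) (fun b => k1 b p)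
      (fun V1 hV1 => k3 p P _ V1 _ hP1 hr'
        (by nlinarith [hVm p, sq_nonneg (k (φ c p))]) (hZ p _ (hpG (u j) (hseq.adm j) p)))
      hb0.le hb1 (fun ha => ⟨(hae ha).1, by linarith [(hae ha).2]⟩) ?_
    have h1 := Nk.EF_graph_w hF hu hW hW0 (1 / 2) p
    have h2 := hdat.nk.low j p
    have h3 : |M.pre.dir (M.Xf (u j)) (fun p => k (φ c p)) p| =
        |deriv k (φ c p)| * |M.pre.dir (M.Xf (u j)) (φ c) p| := by
      rw [Imm.dir_Xf, Imm.dir_Xf, Imm.gam_eq_inner, Imm.gam_eq_inner, hgh, inner_smul_right,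
        ← abs_mul]
      congr 1; ring
    have h4 := gam_div (M := M.graph (u j) hu) hW (hW0 p)
    rw [Imm.graph_pre, (hP2 _).1] at h4
    rw [h4] at h1
    rw [h3] at h2
    have h5 : b0 ^ 2 ≤ γ / 8 * (1 / 8) := by
      rw [sq]; exact mul_le_mul hb2 hb3 hb0.le hδ.le
    change _ ≤ (M.gS (u j)).EF (fun q => F q + log (M.vv (u j) q) + 1 / 2 * log (W q)) p - μ - _
    rw [neg_div]
    linarith
  · exact ((nG.sub ((nF.lapF nW).div nW fun q => (hW0 q).ne')).add ((nW.gam nW).div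
      ((Imm.sm_const _).mul (nW.pow 2)) fun q => by have := hW0 q; positivity)).continuous
  · -- the slice
    obtain ⟨s', hs', k1, -, k3⟩ := key 1 h01
    have hP1 : ‖N.PL q‖ ≤ 1 := ContinuousLinearMap.opNorm_le_bound _ zero_le_one fun w => by
      rw [one_mul]; exact N.norm_PL_le q w
    have hgr : gr N (fun b q => ψ 1 b q.1) q = fun b => ‖N.PL q (M.grad (ψ 1 b) q)‖ :=
      funext fun b => congrArg norm ((hL q).grad ((ψsm 1 b).diffAt _))
    have hb := hSb q q.2.1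
    have h0 := hled.2.2 q hq hb
    have h1 : ∑ b ∈ fin (ev (f s') q), ℓ m b ≤ ∑ b ∈ fin (ev (park φ c) q), ℓ m b :=
      Finset.sum_le_sum_of_subset_of_nonneg
        (fun b hb => mem_fin.2 (shr1_abs ((fs s' hs').1 b q)
          ((mem_fin (φ := ev (f s') q)).1 hb)))
        fun b _ _ => hled.1.1 m b
    have h2 : 0 ≤ |deriv k (φ c q)| * gr M φ q c := mul_nonneg (abs_nonneg _) (norm_nonneg _)
    have hZq : -(γ / 8) ≤ -N.pre.lapF (fun q => F q) (fun q => W q) q / W q ∧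
        (w0 ≤ W q → V0 ≤ -N.pre.lapF (fun q => F q) (fun q => W q) q / W q) := hZ q _ (hpN q)
    rw [hgr]
    refine slc_pt (hdat.spl q hq) hb (hn s' hs' q _ hP1) (hc s' hs' q) (fun b => k1 b q)
      (σ := ρ - 2 * η c) (by linarith) fun h => ok_mono (k3 q _ _ _ _ hP1
        (fun b => add_nonneg (hctx.res b) (hled.1.1 m b)) (by linarith [hVm q]) hZq h) ?_
    have h3 := (hGl q).1
    rw [hgh, norm_smul, Real.norm_eq_abs] at h3
    have h4 := gam_div (M := N) nW (p := q) (hW0 q)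
    rw [(hL q).grad (f := fun q => log (W q)) ((hW.log fun p => (hW0 p).ne').diffAt _)] at h4
    have h5 : N.pre.gam (fun q => W q) (fun q => W q) q / (2 * W q ^ 2) =
        N.pre.gam (fun q => W q) (fun q => W q) q / W q ^ 2 / 2 := by
      rw [div_div, mul_comm]
    rw [h5, h4, neg_div]
    change _ - 2 * (_ * ‖M.grad (φ c) q‖) - _ - _ + _ + _ ≤ _
    linarith
  · exact (isClosed_biUnion_finset fun i _ => isClosed_tsupport _).isOpen_compl.inter
      (isOpen_biUnion fun q _ => isOpen_lt (M.continuous_x.sub continuous_const).norm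
        continuous_const)
  · refine ⟨fun h => ?_, mem_biUnion hp (by simpa using ⟨ht0, ht1⟩)⟩
    obtain ⟨i, hi', h⟩ := mem_iUnion₂.1 h
    exact disjoint_left.1 (hi i (Finset.mem_range.1 hi')).2.2.2.2.1 h hp
  · obtain ⟨q, hq, h⟩ := mem_iUnion₂.1 hp.2
    have hpO := hnear p q hq (le_of_lt h)
    refine le_trans (Nat.add_le_add_right (Finset.card_le_card fun b hb => ?_) 2)
      (hgen p q hq ((le_of_lt h).trans (min_le_left _ _)))
    rw [Finset.mem_filter, ← f1 b p (hO1 p hpO)]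
    refine ⟨Finset.mem_univ _, not_lt.1 fun h1 => ?_⟩
    have h2 := β1 b p (image_eq_zero_of_notMem_tsupport fun h => hp.1
      (mem_iUnion₂.2 ⟨_, Finset.mem_range.2 (Fin.is_lt _), h⟩)) h1.le
    rw [← ψ1] at h2
    exact (not_le.2 h2) ((mem_fin (φ := ev (ψ 1) p)).1 hb)
  · have h1 := f1 b p (hO1 p hp)
    have h2 := (βs 1 h01).1 b p
    have h3 := abs_le.1 (hξ b)
    have h4 : 1 < π / 2 := by linarith [pi_gt_three]
    rw [hpk b hb] at h1
    rw [ψ1]
    exact ⟨fun h => h2.1 (by rw [h1]; nlinarith), fun h => h2.2 (by rw [h1]; nlinarith)⟩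

end Crest.Agent.N228.G

end
end

-- ▼ part N228/G/Flip
section

/-!
# Row 228, block G: FLIP, the phase of `c` becomes `2 u / L` in its band
-/

set_option autoImplicit false
open MeasureTheory Set Filter Topology Function Metric Real
open scoped ContDiff
open Crest.Agent.N222

noncomputable section

namespace Crest.Agent.N228.G

open Crest.Agent.N228.J (JC)

namespace Fl

/-! ### the smooth clamp -/

/-- the smooth clamp -/
abbrev T (δ R t : ℝ) : ℝ := Nk.prof 0 1 δ (R, t)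

/-- its derivative -/
def T' (δ R t : ℝ) : ℝ := 1 - (smoothTransition ((t - R) / δ) + smoothTransition ((-t - R) / δ))

variable {δ R t : ℝ}

theorem T_eq (δ R t : ℝ) : T δ R t = t - Nk.ramp δ (t - R) + Nk.ramp δ (-t - R) := by
  simp only [T, Nk.prof]
  ring

theorem hasDerivAt_T (δ R t : ℝ) : HasDerivAt (T δ R) (T' δ R t) t := by
  have h := ((Nk.contDiff_prof' 0 1 δ R).differentiable (by simp) t).hasDerivAt
  rw [Nk.deriv_prof] at h
  exact h.congr_deriv (by rw [T']; ring)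

theorem T'_mem (hδ : 0 < δ) (hR : 0 ≤ R) (t : ℝ) : 0 ≤ T' δ R t ∧ T' δ R t ≤ 1 := by
  have a1 := smoothTransition.nonneg ((t - R) / δ)
  have a2 := smoothTransition.le_one ((t - R) / δ)
  have b1 := smoothTransition.nonneg ((-t - R) / δ)
  have b2 := smoothTransition.le_one ((-t - R) / δ)
  rw [T']
  refine ⟨?_, by linarith⟩
  rcases le_total t 0 with h | h
  · rw [smoothTransition.zero_of_nonpos (x := (t - R) / δ)
      (div_nonpos_of_nonpos_of_nonneg (by linarith) hδ.le)]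
    linarith
  · rw [smoothTransition.zero_of_nonpos (x := (-t - R) / δ)
      (div_nonpos_of_nonpos_of_nonneg (by linarith) hδ.le)]
    linarith

theorem abs_le_of_T' (hδ : 0 < δ) (hR : 0 ≤ R) (h : T' δ R t ≠ 0) : |t| ≤ R + δ := by
  by_contra hc
  refine h (le_antisymm ?_ (T'_mem hδ hR t).1)
  have a1 := smoothTransition.nonneg ((t - R) / δ)
  have b1 := smoothTransition.nonneg ((-t - R) / δ)
  rw [T']
  rcases lt_abs.1 (not_le.1 hc) with h1 | h1
  · rw [smoothTransition.one_of_one_le (x := (t - R) / δ) ((one_le_div hδ).2 (by linarith))]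
    linarith
  · rw [smoothTransition.one_of_one_le (x := (-t - R) / δ) ((one_le_div hδ).2 (by linarith))]
    linarith

theorem T_soft (hδ : 0 < δ) (h : |t| ≤ R) : T δ R t = t := by
  rw [T, Nk.prof_soft hδ h, one_mul]

theorem abs_T_sub (hδ : 0 < δ) (h : |t| ≤ R + δ) : |T δ R t - t| ≤ δ := by
  rw [abs_le] at h
  obtain ⟨a1, a2⟩ := Nk.ramp_mem (x := t - R) hδ
  obtain ⟨b1, b2⟩ := Nk.ramp_mem (x := -t - R) hδ
  have a3 := a2.trans (max_le (by linarith [h.2]) hδ.le)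
  have b3 := b2.trans (max_le (by linarith [h.1]) hδ.le)
  rw [T_eq, abs_le]
  constructor <;> linarith

theorem T_mem (hδ : 0 < δ) (hR : 0 ≤ R) (t : ℝ) : min t 0 ≤ T δ R t ∧ T δ R t ≤ max t 0 := by
  obtain ⟨a1, a2⟩ := Nk.ramp_mem (x := t - R) hδ
  obtain ⟨b1, b2⟩ := Nk.ramp_mem (x := -t - R) hδ
  rw [T_eq]
  rcases le_total t 0 with h | h
  · have b3 : Nk.ramp δ (-t - R) ≤ -t := b2.trans (max_le (by linarith) (by linarith))
    rw [Nk.ramp_eq_zero (x := t - R) hδ (by linarith), min_eq_left h, max_eq_right h]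
    constructor <;> linarith
  · have a3 : Nk.ramp δ (t - R) ≤ t := a2.trans (max_le (by linarith) h)
    rw [Nk.ramp_eq_zero (x := -t - R) hδ (by linarith), min_eq_right h, max_eq_left h]
    constructor <;> linarith

/-- the new phase lies between `l` and `x` -/
theorem btw (hδ : 0 < δ) (hR : 0 ≤ R) {x l a k : ℝ} (ha : 0 ≤ a ∧ a ≤ 1) (hk : 0 ≤ k ∧ k ≤ 1) :
    min x l ≤ x + k * (l + a * T δ R (x - l) - x) ∧
      x + k * (l + a * T δ R (x - l) - x) ≤ max x l := by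
  obtain ⟨h1, h2⟩ := T_mem hδ hR (x - l)
  generalize T δ R (x - l) = y at *
  have hka : 0 ≤ k * a := mul_nonneg hk.1 ha.1
  have hka' : 0 ≤ k * (1 - a) := mul_nonneg hk.1 (sub_nonneg.2 ha.2)
  have hk' : 0 ≤ 1 - k := sub_nonneg.2 hk.2
  rcases le_total x l with h | h
  · rw [min_eq_left (sub_nonpos.2 h)] at h1
    rw [max_eq_right (sub_nonpos.2 h)] at h2
    rw [min_eq_left h, max_eq_right h]
    constructor
    · nlinarith [mul_nonneg hka (sub_nonneg.2 h1), mul_nonneg hka' (sub_nonneg.2 h)]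
    · nlinarith [mul_nonneg hka (neg_nonneg.2 h2), mul_nonneg hk' (sub_nonneg.2 h)]
  · rw [min_eq_right (sub_nonneg.2 h)] at h1
    rw [max_eq_left (sub_nonneg.2 h)] at h2
    rw [min_eq_right h, max_eq_left h]
    constructor
    · nlinarith [mul_nonneg hka h1, mul_nonneg hk' (sub_nonneg.2 h)]
    · nlinarith [mul_nonneg hka (sub_nonneg.2 h2), mul_nonneg hka' (sub_nonneg.2 h)]

/-! ### the class at one point -/

section Pt

variable {C : Type} [Fintype C] [DecidableEq C] {m : ℕ} {η r φ g : C → ℝ} {V V' : ℝ} {c : C}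

omit [DecidableEq C] in
theorem mem_fin : c ∈ fin φ ↔ |φ c| ≤ π / 2 := by simp [fin]

omit [DecidableEq C] in
theorem good_V (h : Good m η r V φ g) (hV : V ≤ V') : Good m η r V' φ g :=
  h.imp id fun ⟨β, h1, h2⟩ => ⟨β, h1, h2.trans_le hV⟩

theorem good_drop (h : Good m η r V φ g) (hr : ∀ b, 0 ≤ r b) {a : ℝ} (ha : π / 2 < |a|) (e : ℝ) :
    Good m η r V (update φ c a) (update g c e) := by
  have h1 : ∀ b ∈ fin (update φ c a), b ≠ c := fun b hb hbc => by
    rw [mem_fin, hbc, update_self] at hb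
    exact hb.not_gt ha
  have h2 : fin (update φ c a) ⊆ fin φ := fun b hb => by
    have := mem_fin.1 hb
    rwa [update_of_ne (h1 b hb), ← mem_fin] at this
  refine h.imp (fun h => (Nat.add_le_add_right (Finset.card_le_card h2) 2).trans h)
    fun ⟨β, h3, h4⟩ => ⟨β, fun b hb => ?_, lt_of_le_of_lt ?_ h4⟩
  · rw [update_of_ne (h1 b hb), update_of_ne (h1 b hb)]
    exact h3 b (h2 hb)
  · exact Finset.sum_le_sum_of_subset_of_nonneg h2 fun b _ _ => add_nonneg (by positivity) (hr b)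

theorem good_new (h : Good m η r V φ g) (hc : |φ c| ≤ π / 2) {a e b : ℝ} (ha : |a| ≤ π / 2)
    (hb : 0 ≤ b) (hb' : b ≤ √(η c) / 8) (he : e < b) :
    Good m η r (V + 4 / 3 * b ^ 2) (update φ c a) (update g c e) := by
  have h1 : fin (update φ c a) = fin φ := by
    ext x
    rw [mem_fin, mem_fin]
    by_cases hx : x = c
    · rw [hx, update_self]
      exact iff_of_true ha hc
    · rw [update_of_ne hx]
  refine h.imp (fun h => by rwa [Few, h1]) fun ⟨β, h3, h4⟩ => ⟨update β c b, fun x hx => ?_, ?_⟩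
  · by_cases hxc : x = c
    · rw [hxc, update_self, update_self, update_self, rate]
      have c1 := cos_nonneg_of_mem_Icc (abs_le.1 ha)
      have c2 := mul_nonneg c1 (sub_nonneg.2 (cos_le_one a))
      have c3 := sin_sq_add_cos_sq a
      have c4 := mul_le_mul_of_nonneg_right hb' (sq_nonneg (sin a))
      have c5 : 1 ≤ cos a + sin a ^ 2 := by nlinarith
      nlinarith [mul_le_mul_of_nonneg_left c5 hb]
    · rw [update_of_ne hxc, update_of_ne hxc, update_of_ne hxc]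
      exact h3 x (h1 ▸ hx)
  · have h5 := mem_fin.2 hc
    rw [h1, ← Finset.add_sum_erase _ _ h5, update_self, Finset.sum_congr rfl
      (g := fun x => 4 / 3 * β x ^ 2 + r x) fun x hx => by
        rw [update_of_ne (Finset.ne_of_mem_erase hx)]]
    rw [← Finset.add_sum_erase _ _ h5] at h4
    nlinarith [sq_nonneg (β c)]

end Pt

/-! ### gradients -/

variable {d : ℕ} {ι : Type} [Fintype ι] [DecidableEq ι] {X : Type} [TopologicalSpace X]
  {M : Imm d ι X} {p : X}

theorem norm_grad_le {f x l : X → ℝ} (hx : M.Sm x) (hl : M.Sm l) {a : ℝ}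
    (h : f =ᶠ[𝓝 p] fun q => l q + a * T δ R (x q - l q))
    (h0 : 0 ≤ a * T' δ R (x p - l p)) (h1 : a * T' δ R (x p - l p) ≤ 1) :
    ‖M.grad f p‖ ≤ ‖M.grad l p‖ + a * T' δ R (x p - l p) * ‖M.grad x p‖ := by
  have hd := (hx.sub hl).diffAt p
  have hT := hasDerivAt_T δ R (x p - l p)
  have e : M.grad f p = (1 - a * T' δ R (x p - l p)) • M.grad l p +
      (a * T' δ R (x p - l p)) • M.grad x p := by
    ext i
    change M.pre.D i f p = (1 - _) * M.pre.D i l p + _ * M.pre.D i x p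
    rw [Imm.D_congr h, Imm.D_add (hl.diffAt p) ((hd.comp hT.differentiableAt).comp
      (g := fun y => a * y) (by fun_prop)), Imm.D_const_mul a (hd.comp hT.differentiableAt),
      Imm.D_comp hd hT, Imm.D_sub (hx.diffAt p) (hl.diffAt p)]
    ring
  rw [e]
  refine (norm_add_le _ _).trans ?_
  rw [norm_smul, norm_smul, Real.norm_of_nonneg h0, Real.norm_of_nonneg (sub_nonneg.2 h1)]
  nlinarith [mul_nonneg h0 (norm_nonneg (M.grad l p))]

theorem norm_grad_lam {u : X → ℝ} (hu : M.Sm u) {k : ℝ} (hk : 0 ≤ k) (h : ‖M.grad u p‖ ≤ 1) :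
    ‖M.grad (fun q => k * u q) p‖ ≤ k := by
  have e : M.grad (fun q => k * u q) p = k • M.grad u p := by
    ext i
    exact Imm.D_const_mul k (hu.diffAt p) i
  rw [e, norm_smul, Real.norm_of_nonneg hk]
  exact mul_le_of_le_one_right hk h

omit [TopologicalSpace X] in
theorem ev_update {C : Type} [DecidableEq C] (φ : C → X → ℝ) (c : C) (f : X → ℝ) (p : X) :
    ev (update φ c f) p = update (ev φ p) c (f p) := by
  funext b
  by_cases hb : b = c
  · rw [hb, update_self, ev, update_self]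
  · rw [update_of_ne hb, ev, update_of_ne hb]

theorem gr_update {C : Type} [DecidableEq C] (φ : C → X → ℝ) (c : C) (f : X → ℝ) (p : X) :
    gr M (update φ c f) p = update (gr M φ p) c ‖M.grad f p‖ := by
  funext b
  by_cases hb : b = c
  · rw [hb, update_self, gr, update_self]
  · rw [update_of_ne hb, gr, gr, update_of_ne hb]

end Fl

open Fl in
theorem flip : FlipStmt := by
  intro γ η0 hγ hη0
  obtain ⟨b, hb0, hb1, hb2⟩ : ∃ b : ℝ, 0 < b ∧ b ≤ √γ / 2 ∧ b ≤ √η0 / 8 :=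
    ⟨min (√γ / 2) (√η0 / 8), by positivity, min_le_left _ _, min_le_right _ _⟩
  have hb3 : 4 / 3 * b ^ 2 ≤ γ / 2 := by
    have h1 := pow_le_pow_left₀ hb0.le hb1 2
    rw [div_pow, Real.sq_sqrt hγ.le] at h1
    linarith
  have hm : 0 < min b γ := lt_min hb0 hγ
  refine ⟨4 / min b γ, by positivity, fun L hL => ?_⟩
  have hL0 : 0 < L := lt_of_lt_of_le (by positivity) hL
  have hk0 : 0 < 2 / L := by positivity
  have hk : 2 / L < min b γ := by
    rw [div_le_iff₀ hm] at hL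
    rw [div_lt_iff₀ hL0]
    linarith
  intro d ι _ _ X _ _ _ _ _ M _ C _ _ A U η r μ φ c F u hη hr hφ _ hu hgu hU hband hbar hyp
  have hl : M.Sm fun q => 2 / L * u q := (Imm.sm_const _).mul hu
  have hgl : ∀ p, ‖M.grad (fun q => 2 / L * u q) p‖ ≤ 2 / L := fun p =>
    norm_grad_lam hu hk0.le (hgu p)
  have hlu : ∀ p, 2 / L * u p * L = 2 * u p := fun p => by field_simp
  generalize hlam : (fun q => 2 / L * u q) = l at hl hgl
  replace hlu : ∀ p, l p * L = 2 * u p := fun p => by rw [← hlam]; exact hlu p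
  obtain ⟨χ, hχ, hχU, hχ1, hχK⟩ := M.exists_bump (K := {p | |φ c p| ≤ π / 2})
    (isClosed_le (hφ c).continuous.abs continuous_const).isCompact hU hband
  obtain ⟨R0, hR0⟩ := isCompact_univ.exists_bound_of_continuousOn
    ((hφ c).sub hl).continuous.continuousOn
  obtain ⟨R, hRc, hR, hR1, hR2⟩ : ∃ R : ℝ → ℝ, Continuous R ∧ (∀ s, 0 ≤ R s) ∧
      (∀ p, |φ c p - l p| ≤ R 0) ∧ ∀ s, 1 / 2 ≤ s → R s = 0 :=
    ⟨fun s => |R0| * max (1 - 2 * s) 0, by fun_prop, fun s => by positivity,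
      fun p => by simpa using (hR0 p (mem_univ p)).trans (le_abs_self R0),
      fun s hs => by simp only [max_eq_right (show 1 - 2 * s ≤ 0 by linarith), mul_zero]⟩
  obtain ⟨a, hac, ha, ha1, ha2⟩ : ∃ a : ℝ → ℝ, Continuous a ∧ (∀ s ≤ 1, 0 ≤ a s ∧ a s ≤ 1) ∧
      (∀ s ≤ 1 / 2, a s = 1) ∧ a 1 = 0 :=
    ⟨fun s => min 1 (2 - 2 * s), by fun_prop,
      fun s hs => ⟨le_min zero_le_one (by linarith), min_le_left _ _⟩,
      fun s hs => min_eq_left (by linarith), by norm_num⟩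
  obtain ⟨f, hf⟩ : ∃ f : ℝ → X → ℝ, f = fun s p =>
    φ c p + χ p * (l p + a s * T γ (R s) (φ c p - l p) - φ c p) := ⟨_, rfl⟩
  have hbt : ∀ s ≤ 1, ∀ p, min (φ c p) (l p) ≤ f s p ∧ f s p ≤ max (φ c p) (l p) :=
    fun s hs p => by rw [hf]; exact btw hγ (hR s) (ha s hs) (hχ1 p)
  have hpi := Real.pi_lt_four
  have hsh : ∀ s ≤ 1, ∀ p, Shr1 (φ c p) (f s p) := fun s hs p => by
    refine ⟨fun h => lt_of_lt_of_le (lt_min h ?_) (hbt s hs p).1,
      fun h => lt_of_le_of_lt (hbt s hs p).2 (max_lt h ?_)⟩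
    · have h1 := (hbar p).1 h.le
      have h2 : 2 ≤ l p := le_of_mul_le_mul_right (by rw [hlu]; linarith) hL0
      linarith
    · have h1 := (hbar p).2 h.le
      have h2 : l p ≤ -2 := le_of_mul_le_mul_right (by rw [hlu]; linarith) hL0
      linarith
  have hfin : ∀ s ≤ 1, ∀ p, |f s p| ≤ π / 2 → |φ c p| ≤ π / 2 := fun s hs p h => by
    rw [abs_le] at h ⊢
    exact ⟨not_lt.1 fun h1 => ((hsh s hs p).2 h1).not_ge h.1,
      not_lt.1 fun h1 => ((hsh s hs p).1 h1).not_ge h.2⟩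
  have hev : ∀ s p, |φ c p| ≤ π / 2 →
      f s =ᶠ[𝓝 p] fun q => l q + a s * T γ (R s) (φ c q - l q) := fun s p hp => by
    filter_upwards [eventually_nhdsSet_iff_forall.1 hχK p hp] with q hq
    rw [hf]
    simp only [hq]
    ring
  have hT : ∀ s ≤ 1, ∀ t, 0 ≤ a s * T' γ (R s) t ∧ a s * T' γ (R s) t ≤ 1 := fun s hs t =>
    ⟨mul_nonneg (ha s hs).1 (T'_mem hγ (hR s) t).1,
      mul_le_one₀ (ha s hs).2 (T'_mem hγ (hR s) t).1 (T'_mem hγ (hR s) t).2⟩
  have hgr : ∀ s ≤ 1, ∀ p, |φ c p| ≤ π / 2 → ‖M.grad (f s) p‖ ≤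
      2 / L + a s * T' γ (R s) (φ c p - l p) * ‖M.grad (φ c) p‖ := fun s hs p hp =>
    (norm_grad_le (hφ c) hl (hev s p hp) (hT s hs _).1 (hT s hs _).2).trans
      (add_le_add_left (hgl p) _)
  refine ⟨f, ?_, ?_, fun s hs => ⟨hsh s hs.2, fun p hp => ?_, fun p hp => ?_⟩, fun p hp => ?_⟩
  · have j1 : JC M.atl univ fun _ : ℝ => φ c := JC.of_sm rfl isOpen_univ (hφ c)
    have j2 : JC M.atl univ fun _ : ℝ => l := JC.of_sm rfl isOpen_univ hl
    have j3 : JC M.atl univ fun _ : ℝ => χ := JC.of_sm rfl isOpen_univ hχ.sm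
    rw [hf]
    exact j1.add (j3.mul ((j2.add ((JC.consts isOpen_univ hac).mul
      (((JC.consts isOpen_univ hRc).prodMk (j1.sub j2)).comp (Nk.contDiff_prof 0 1 γ)))).sub j1))
  · funext p
    rw [hf]
    simp only [ha1 0 (by norm_num), T_soft hγ (hR1 p)]
    ring
  · rw [hf]
    simp only [image_eq_zero_of_notMem_tsupport fun h => hp (hχU h), zero_mul, add_zero]
  · have h0 := hyp p hp (φ c p) (gr M φ p c) (by simpa using hγ.le) (by linarith)
    rw [update_eq_self, update_eq_self] at h0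
    rw [ev_update, gr_update]
    rcases lt_or_ge (π / 2) |f s p| with h1 | h1
    · exact good_drop (good_V h0 (by linarith)) hr h1 _
    have h2 := hfin s hs.2 p h1
    have h3 := hgr s hs.2 p h2
    by_cases h4 : T' γ (R s) (φ c p - l p) = 0
    · rw [h4, mul_zero, zero_mul, add_zero] at h3
      exact good_V (good_new h0 h2 h1 hb0.le (hη ▸ hb2)
        (h3.trans_lt (hk.trans_le (min_le_left _ _)))) (by linarith)
    · have h5 := abs_le_of_T' hγ (hR s) h4
      refine good_V (hyp p hp _ _ ?_ ?_) (by linarith)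
      · rcases le_total s (1 / 2) with h6 | h6
        · rw [(hev s p h2).eq_of_nhds, ha1 s h6]
          refine le_trans (le_of_eq ?_) (abs_T_sub hγ h5)
          congr 1
          ring
        · rw [hR2 s h6, zero_add, abs_le] at h5
          obtain ⟨h7, h8⟩ := hbt s hs.2 p
          have h9 : φ c p - γ ≤ min (φ c p) (l p) := le_min (by linarith) (by linarith [h5.2])
          have h10 : max (φ c p) (l p) ≤ φ c p + γ := max_le (by linarith) (by linarith [h5.1])
          rw [abs_le]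
          constructor <;> linarith
      · have h6 := mul_le_of_le_one_left (norm_nonneg (M.grad (φ c) p))
          (hT s hs.2 (φ c p - l p)).2
        have h7 := hk.trans_le (min_le_right _ _)
        change _ ≤ ‖M.grad (φ c) p‖ + γ
        linarith
  · have h2 := hfin 1 le_rfl p hp
    have h3 := hgr 1 le_rfl p h2
    rw [ha2, zero_mul, zero_mul, add_zero] at h3
    refine ⟨?_, h3⟩
    rw [(hev 1 p h2).eq_of_nhds, ha2, zero_mul, add_zero, abs_le] at hp
    have h4 := hlu p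
    rw [abs_le]
    constructor <;> nlinarith [hp.1, hp.2]

end Crest.Agent.N228.G

end
end

-- ▼ part N228/G/Proj

/-!
# Row 228, block G: PROJ (slopes on a graph) and CAR (closing up with an embedding) (helper60)
-/

set_option autoImplicit false
set_option linter.unusedSectionVars false
open MeasureTheory Set Filter Topology Function Metric
open scoped ContDiff InnerProductSpace RealInnerProductSpace
open Crest.Agent.N222 Crest.Agent.N222.Imm

noncomputable section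

namespace Crest.Agent.N228.G

namespace Proj

variable {ι κ : Type} [Fintype ι] [Fintype κ]

/-- `(1 - (1 + v)⁻¹ X ⊗ X)² = 1 - X ⊗ X` when `|X|² = 1 - v²` -/
theorem exists_root (X : E ι) {v : ℝ} (hv : 0 < v) (hX : ‖X‖ ^ 2 = 1 - v ^ 2) :
    ∃ P : E ι →L[ℝ] E ι, ‖P‖ ≤ 1 ∧ ∀ z, ⟪X, z⟫ ^ 2 + ‖P z‖ ^ 2 = ‖z‖ ^ 2 := by
  set P : E ι →L[ℝ] E ι := 1 - (1 + v)⁻¹ • (innerSL ℝ X).smulRight X with hP
  have h : ∀ z, ⟪X, z⟫ ^ 2 + ‖P z‖ ^ 2 = ‖z‖ ^ 2 := fun z => by
    have e : P z = z - ((1 + v)⁻¹ * ⟪X, z⟫) • X := by simp [hP, mul_smul]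
    rw [e, norm_sub_sq_real, real_inner_smul_right, norm_smul, mul_pow, hX, Real.norm_eq_abs,
      sq_abs, real_inner_comm X z]
    have : 1 + v ≠ 0 := by positivity
    field_simp
    ring
  refine ⟨P, ContinuousLinearMap.opNorm_le_bound _ zero_le_one fun z => ?_, h⟩
  rw [one_mul]
  exact abs_le_of_sq_le_sq' (by linarith [h z, sq_nonneg ⟪X, z⟫]) (norm_nonneg _) |>.2

/-- the horizontal inclusion -/
def upI (ι : Type) [Fintype ι] [DecidableEq ι] : E ι →ₗᵢ[ℝ] E (Option ι) where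
  toFun y := up 0 y
  map_add' y z := by rw [up_add, add_zero]
  map_smul' c y := by rw [smul_up, mul_zero]; rfl
  norm_map' y := (sq_eq_sq₀ (norm_nonneg _) (norm_nonneg _)).1 <| by
    change ‖up 0 y‖ ^ 2 = _
    rw [norm_sq_up]; ring

/-- the inclusion of the first factor -/
def inI (ι κ : Type) [Fintype ι] [Fintype κ] : E ι →ₗᵢ[ℝ] E (ι ⊕ κ) where
  toFun y := WithLp.toLp 2 (Sum.elim (fun a => y a) fun _ => 0)
  map_add' y z := by ext c; cases c <;> simp
  map_smul' c y := by ext c; cases c <;> simp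
  norm_map' y := by
    change ‖(WithLp.toLp 2 (Sum.elim (fun a => y a) fun _ => 0) : E (ι ⊕ κ))‖ = _
    simp [EuclideanSpace.norm_eq, Fintype.sum_sum_type]

variable {d : ℕ} {X : Type} [TopologicalSpace X] {M : Imm d ι X} {y : κ → X → ℝ}


theorem xt_inr (hy : ∀ i, M.Sm (y i)) (p : X) (i : κ) : (M.xt y).x p (Sum.inr i) = y i p :=
  if_pos hy

theorem xt_zero (hy : ∀ i, M.Sm (y i)) {p : X} (h : ∀ i, y i p = 0) :
    (M.xt y).x p = inI ι κ (M.x p) := by
  ext c
  cases c with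
  | inl a => rfl
  | inr i => exact (xt_inr hy p i).trans (h i)

end Proj

open Proj

theorem proj : ProjStmt := by
  intro d ι _ _ X _ _ _ _ _ M u hu p
  have hv := M.vv_pos u p
  constructor
  · refine (abs_le_of_sq_le_sq' ?_ zero_le_one).2
    rw [← gam_self_eq, graph_pre, gS_gam_u]
    linarith [sq_nonneg (M.vv u p)]
  · obtain ⟨P, hP, h⟩ := exists_root (M.vv u p • M.grad u p) hv (by
      rw [norm_smul, mul_pow, Real.norm_eq_abs, sq_abs, ← gam_self_eq]
      linear_combination M.vv_sq u p)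
    refine ⟨P, hP, fun f => ?_⟩
    have h1 := h (M.grad f p)
    rw [real_inner_smul_left, ← gam_eq_inner, ← dir_Xf] at h1
    refine ⟨(sq_eq_sq₀ (norm_nonneg _) (norm_nonneg _)).1 ?_, h1⟩
    rw [← gam_self_eq, graph_pre, gS_gam, gam_self_eq]
    linarith

theorem car : CarStmt := by
  intro d ι _ _ X _ _ _ _ _ M hinj V K δ hV hF hK hδ
  obtain ⟨Y, _, _, _, _, _, _, N, e, c, F, hKe, hx, hsF, hEF⟩ := Gr.close_up hV hF hK hδ
  have hK' : IsCompact (e '' K) := hK.image_of_continuousOn (e.continuousOn.mono hKe)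
  obtain ⟨χ, hχ, hs, -, h1⟩ := N.exists_bump hK' e.open_target (by
    rintro _ ⟨p, hp, rfl⟩
    exact e.map_source (hKe hp))
  obtain ⟨n, y, hy, hsep⟩ := N.exists_separating
  set z : Option (Fin n) → Y → ℝ := fun i q => (1 - χ q) * i.elim 1 fun k => y k q with hz
  have hzs : ∀ i, N.Sm (z i) := fun i => ((sm_const 1).sub hχ.sm).mul <| by
    cases i with
    | none => exact sm_const 1
    | some k => exact hy k
  have hz0 : ∀ q, χ q = 1 → (N.xt z).x q = inI _ _ (N.x q) := fun q hq =>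
    xt_zero hzs fun i => by simp [hz, hq]
  refine ⟨Option ι ⊕ Option (Fin n), inferInstance, inferInstance, Y, _, ‹_›, ‹_›, _, ‹_›, N.xt z,
    ‹_›, fun q q' hq => ?_,
    e.restrOpen (e.source ∩ e ⁻¹' interior {q | χ q = 1}) (e.isOpen_inter_preimage isOpen_interior),
    (inI _ _).comp (upI ι), inI _ _ (up c 0), F, fun p hp => ⟨hKe hp, hKe hp, ?_⟩,
    fun p hp => ?_, hsF, fun p hp => ?_⟩
  · have e1 : N.x q = N.x q' := by
      ext a
      exact congrArg (fun w : E (Option ι ⊕ Option (Fin n)) => w (Sum.inl a)) hq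
    have e2 : ∀ i, z i q = z i q' := fun i => by
      rw [← xt_inr hzs, ← xt_inr hzs, hq]
    have e3 : χ q = χ q' := by
      have := e2 none
      simp only [hz, Option.elim, mul_one] at this
      linarith
    by_cases h : χ q = 1
    · have m1 : q ∈ e.target := hs (subset_tsupport _ (by simp [h]))
      have m2 : q' ∈ e.target := hs (subset_tsupport _ (by simp [← e3, h]))
      rw [← e.right_inv m1, ← e.right_inv m2, hx _ (e.map_target m1), hx _ (e.map_target m2)] at e1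
      rw [← e.right_inv m1, ← e.right_inv m2, hinj (congrArg down e1)]
    · refine hsep q q' fun k => ?_
      have := e2 (some k)
      simp only [hz, Option.elim, ← e3] at this
      exact mul_left_cancel₀ (sub_ne_zero.2 (Ne.symm h)) this
  · exact mem_interior_iff_mem_nhds.2 (eventually_nhdsSet_iff_forall.1 h1 _ (mem_image_of_mem _ hp))
  · change (N.xt z).x (e p) = inI _ _ (up 0 (M.x p)) + _
    have h2 : e p ∈ {q | χ q = 1} := interior_subset hp.2.2
    rw [hz0 _ h2, hx p hp.1, ← map_add, up_add, zero_add, add_zero]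
  · have hl : Gr.LI N (N.xt z) id (e p) := ⟨inI _ _, 0, by
      filter_upwards [mem_interior_iff_mem_nhds.1 hp.2.2] with q hq
      exact ⟨continuousAt_id, by rw [add_zero]; exact hz0 q hq⟩⟩
    exact (hEF p hp.1).trans_eq (hl.EF (F := F) hsF)

end Crest.Agent.N228.G

end
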