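import Crest.Agent.N228.G.Basic
import Crest.Agent.N228.Nk.Sol
import Crest.Agent.N228.O.Pull
import Crest.Agent.N228.N3.Band
import Crest.Agent.N228.G.Proj_Mg

-- ▼ part N228/G/Core
section

/-! # Row 228, block G (helper16): the core of the step -/

set_option autoImplicit false
set_option linter.unusedSectionVars false
open MeasureTheory Set Filter Topology Function Real
open scoped ContDiff
open Crest.Agent.N222 Crest.Agent.N222.Imm Crest.Agent.N228.J

noncomputable section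

namespace Crest.Agent.N228.G

variable {d : ℕ} {ι : Type} [Fintype ι] [DecidableEq ι] {X : Type} [TopologicalSpace X]
  [MeasurableSpace X] {C : Type} [Fintype C] [DecidableEq C] {M : Imm d ι X}

theorem inD_xt_zero {A : Set X} {η r : C → ℝ} {μ : ℝ} {φ : C → X → ℝ} (h : InD M A η r μ φ)
    {κ : Type} [Fintype κ] [DecidableEq κ] {y : κ → X → ℝ} (hy : ∀ i p, y i p = 0) :
    InD (M.xt y) A η r μ φ := by
  obtain ⟨F, hF, h⟩ := h
  have l := fun p => li_xt (M := M) (p := p) (a := fun _ => 0)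
    (fun i => (funext (hy i) : y i = fun _ => 0) ▸ sm_const 0) (.of_forall fun q i => hy i q)
  refine ⟨F, hF, fun p hp => ?_⟩
  have e1 : M.pre.EF F p = (M.xt y).pre.EF F p := (l p).EF hF
  have e2 : gr M φ p = gr (M.xt y) φ p := funext fun c =>
    (sq_eq_sq₀ (norm_nonneg _) (norm_nonneg _)).1 (by
      rw [← gam_self_eq, ← gam_self_eq]; exact (l p).gam (φ c) (φ c))
  exact e1 ▸ e2 ▸ h p hp

/-- a path without new coordinates, followed by a path -/
theorem prepend {A U : Set X} {η r : C → ℝ} {μ : ℝ} {φ0 : C → X → ℝ} {χ : ℝ → C → X → ℝ}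
    {Q : (C → X → ℝ) → Prop} (hj : ∀ c, JC M.atl univ fun s => χ s c)
    (h : ∀ s ∈ Icc (0 : ℝ) 1, InD M A η r μ (χ s) ∧ Shr φ0 (χ s) ∧
      ∀ p, p ∉ U → ∀ c, χ s c p = χ 0 c p) (hp : ExPath M A U η r μ φ0 (χ 1) Q) :
    ExPath M A U η r μ φ0 (χ 0) Q := by
  obtain ⟨κ, _, _, y, ψ, P, hQ⟩ := hp
  have c1 : Continuous fun s : ℝ => min (2 * s) 1 := by fun_prop
  have c2 : Continuous fun s : ℝ => max (2 * s - 1) 0 := by fun_prop
  set ψ' : ℝ → C → X → ℝ := fun s c p =>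
    χ (min (2 * s) 1) c p + ψ (max (2 * s - 1) 0) c p - χ 1 c p with hψ
  have e1 : ∀ s, 2 * s ≤ 1 → max (2 * s - 1) 0 = 0 ∧ ψ' s = χ (2 * s) := fun s hs => by
    have := max_eq_right (sub_nonpos.2 hs)
    exact ⟨this, by simp only [hψ, this, min_eq_left hs, P.ψ0, add_sub_cancel_right]⟩
  have e2 : ∀ s, 1 ≤ 2 * s → max (2 * s - 1) 0 = 2 * s - 1 ∧ ψ' s = ψ (2 * s - 1) := fun s hs => by
    have := max_eq_left (sub_nonneg.2 hs)
    exact ⟨this, by simp only [hψ, this, min_eq_right hs, add_sub_cancel_left]⟩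
  have key : ∀ s ∈ Icc (0 : ℝ) 1, InD (M.xt (y (max (2 * s - 1) 0))) A η r μ (ψ' s) ∧
      Shr φ0 (ψ' s) ∧ ∀ p, p ∉ U → (∀ i, y (max (2 * s - 1) 0) i p = 0) ∧
        ∀ c, ψ' s c p = χ 0 c p := fun s hs => by
    rcases le_total (2 * s) 1 with h1 | h1
    · obtain ⟨a1, a2, a3⟩ := h (2 * s) ⟨by linarith [hs.1], h1⟩
      rw [(e1 s h1).1, (e1 s h1).2]
      exact ⟨inD_xt_zero a1 P.y0, a2, fun p hp => ⟨fun i => P.y0 i p, a3 p hp⟩⟩
    · have m : 2 * s - 1 ∈ Icc (0 : ℝ) 1 := ⟨by linarith, by linarith [hs.2]⟩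
      rw [(e2 s h1).1, (e2 s h1).2]
      exact ⟨P.cls _ m, P.shr _ m, fun p hp => ⟨(P.loc _ m p hp).1, fun c =>
        ((P.loc _ m p hp).2 c).trans ((h 1 ⟨zero_le_one, le_rfl⟩).2.2 p hp c)⟩⟩
  refine ⟨κ, _, _, fun s => y (max (2 * s - 1) 0), ψ', ⟨fun i => (P.jy i).reparam c2,
    fun c => (((hj c).reparam c1).add ((P.jψ c).reparam c2)).sub
      ((hj c).reparam continuous_const), fun i p => ?_, ?_, fun s hs => (key s hs).1,
    fun s hs => (key s hs).2.1, fun s hs => (key s hs).2.2⟩, ?_⟩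
  · rw [(e1 0 (by norm_num)).1, P.y0]
  · rw [(e1 0 (by norm_num)).2, mul_zero]
  · rw [(e2 1 (by norm_num)).2, show (2 * 1 - 1 : ℝ) = 1 by norm_num]; exact hQ

theorem gr_update (M : Imm d ι X) (φ : C → X → ℝ) (c : C) (f : X → ℝ) (p : X) :
    gr M (update φ c f) p = update (gr M φ p) c ‖M.grad f p‖ := by
  funext b
  rcases eq_or_ne b c with rfl | h
  · simp only [gr, update_self]
  · simp only [gr, update_of_ne h]

theorem jc_update {Λ : Type} [TopologicalSpace Λ] {φ : Λ → C → X → ℝ} {f : Λ → X → ℝ}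
    (h : ∀ b, JC M.atl univ fun s => φ s b) (hf : JC M.atl univ f) (c b : C) :
    JC M.atl univ fun s => update (φ s) c (f s) b := by
  rcases eq_or_ne b c with rfl | e
  · simpa only [update_self] using hf
  · simpa only [update_of_ne e] using h b

theorem sq_graph {u : X → ℝ} (hu : M.Sm u) (f : X → ℝ) (p : X) :
    |M.pre.dir (M.Xf u) f p| ^ 2 + ‖(M.graph u hu).grad f p‖ ^ 2 = ‖M.grad f p‖ ^ 2 := by
  rw [← gam_self_eq, ← gam_self_eq, graph_pre, gS_gam, sq_abs]; ring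

theorem norm_graph_le {u : X → ℝ} (hu : M.Sm u) (f : X → ℝ) (p : X) :
    ‖(M.graph u hu).grad f p‖ ≤ ‖M.grad f p‖ :=
  le_of_sq_le_sq (by linarith [sq_graph hu f p, sq_nonneg |M.pre.dir (M.Xf u) f p|]) (norm_nonneg _)

theorem norm_graph_u {u : X → ℝ} (hu : M.Sm u) (p : X) : ‖(M.graph u hu).grad u p‖ ≤ 1 :=
  le_of_sq_le_sq (by
    rw [← gam_self_eq, graph_pre, gS_gam_u]; linarith [sq_nonneg (M.vv u p)]) zero_le_one

/-- the class on a graph, with room -/
theorem spl_graph {m : ℕ} {η r : C → ℝ} {c : C} {γ μ : ℝ} {k : ℝ → ℝ} {φ : C → X → ℝ} {F u : X → ℝ}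
    {p : X} (h : Spl m η r c γ k (M.pre.EF F p - μ) (ev φ p) (gr M φ p)) (hγ : 0 ≤ γ) (hF : M.Sm F)
    (hk : ContDiff ℝ ∞ k) (hφ : M.Sm (φ c)) (hu : M.Sm u)
    (hl : Low M F (fun p => k (φ c p)) (γ / 4) u) {a e : ℝ} (ha : |a - φ c p| ≤ γ)
    (he : e ≤ gr (M.graph u hu) φ p c + γ) : Good (m + 1) η (update r c (r c - η c))
      ((M.graph u hu).pre.EF (fun q => F q + log (M.vv u q)) p - μ - γ / 2)
      (update (ev φ p) c a) (update (gr (M.graph u hu) φ p) c e) := by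
  refine h.gr _ _ _ _ _ (abs_nonneg _) (norm_nonneg _) (sq_graph hu (φ c) p).le ?_ (fun b => ?_)
    (fun b hb => ?_) (by rwa [update_self])
  · have h1 := hl p
    have h2 : M.pre.dir (M.Xf u) (fun p => k (φ c p)) p =
        deriv k (φ c p) * M.pre.dir (M.Xf u) (φ c) p := by
      simp only [dir_apply, D_comp (hφ.diffAt p) (hk.differentiable (by simp) _).hasDerivAt,
        Finset.mul_sum]
      exact Finset.sum_congr rfl fun _ _ => by ring
    have h3 : 0 ≤ (M.gS u).gam (M.vv u) (M.vv u) p / M.vv u p ^ 2 :=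
      div_nonneg (graph_pre hu ▸ gam_self_nonneg (M := M.graph u hu) _ _) (sq_nonneg _)
    rw [h2, abs_mul] at h1
    rw [graph_pre, Nk.EF_graph hF hu]
    linarith
  · rcases eq_or_ne b c with rfl | hb
    · rwa [update_self]
    · rwa [update_of_ne hb, sub_self, abs_zero]
  · rw [update_of_ne hb]
    exact (norm_graph_le hu _ p).trans (le_add_of_nonneg_right hγ)

theorem core (hM : MidStmt) (hG : GraftStmt) (hFl : FlipStmt) (m : ℕ) (hS : SStmt m) :
    CoreStmt m := by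
  intro ι _ _ X _ _ _ _ _ _ C _ _ M A η r μ ℓ φ ctx U c ρ F γ k Λ 𝒰 u τ s hI hL hρ D hU hcU
  obtain ⟨N, hN, ε, w, ψ, V, T, O, Md⟩ :=
    hM m ι X C M A η r μ ℓ φ ctx U c ρ F γ k Λ 𝒰 u τ s hI hL hρ D hU hcU
  obtain ⟨L0, h0⟩ := hG m hS ι X C M A η r μ ℓ φ ctx U c ρ F γ k Λ 𝒰 u τ s hI hL hρ D hU hcU
    N hN ε w ψ V T O Md
  obtain ⟨L1, hL1, h1⟩ := hFl γ (η c) D.pos (ctx.eta c)
  set L := max (max L0 L1) (2 / ε)
  obtain ⟨j, j0, j1⟩ := ((h0 L (le_max_of_le_left (le_max_left _ _))).and (D.nk.bar L)).exists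
  have hu := (D.nk.seq.adm j).sm
  have hF : M.Sm fun q => F q + log (M.vv (u j) q) :=
    D.smF.add (hu.vv.log fun p => (M.vv_pos _ p).ne')
  have hr : ∀ b, update r c (r c - ρ) b ≤ update r c (r c - η c) b := fun b => by
    rcases eq_or_ne b c with rfl | hb
    · simp only [update_self]; linarith [hL.2.1]
    · simp only [update_of_ne hb, le_refl]
  obtain ⟨f, f1, f2, f3, f4⟩ := h1 L (le_max_of_le_left (le_max_right _ _)) _ _ X
    (M.graph (u j) hu) inferInstance C A U η (update r c (r c - η c)) μ φ c _ (u j) rfl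
    (fun b => by
      rcases eq_or_ne b c with rfl | hb
      · rw [update_self]; linarith [hL.2.1]
      · rw [update_of_ne hb]; exact ctx.res b)
    ctx.sm hF hu (norm_graph_u hu) hU hcU j1 fun p hp a e ha he =>
      spl_graph (D.spl p hp) D.pos.le D.smF D.smk (ctx.sm c) hu (D.nk.low j) ha he
  have one : (1 : ℝ) ∈ Icc (0 : ℝ) 1 := ⟨zero_le_one, le_rfl⟩
  have hf : M.Sm (f 1) := f1.sm (M := M) rfl 1
  have hε : 2 / L ≤ ε := by
    have h2 : 0 < L := hL1.trans_le (le_max_of_le_left (le_max_right _ _))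
    rw [div_le_iff₀' h2, ← div_le_iff₀ Md.pos]
    exact le_max_right _ _
  have e1 := prepend (M := M.graph (u j) hu) (χ := fun s => update (ψ s) c (f 1))
    (jc_update Md.jc (JC.of_sm rfl isOpen_univ hf) c) (fun s hs => ⟨⟨wF M F w (u j),
      hF.add ((sm_const _).mul (Md.smw.log fun p => (Md.wpos p).ne')), fun p hp => ?_⟩,
      Shr.update (fun b hb => (Md.shr s hs).of_park hb) (f3 1 one).1, fun p hp b => ?_⟩)
    (j0 hu (f 1) hf (f3 1 one).1 f4)
  · refine ⟨j, hu, ?_⟩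
    have e2 := prepend (M := M.graph (u j) hu) (χ := fun s => update φ c (f s))
      (jc_update (φ := fun _ => φ) (fun b => JC.of_sm rfl isOpen_univ (ctx.sm b)) f1 c) (fun s hs =>
        ⟨⟨_, hF, fun p hp => ((f3 s hs).2.2 p hp).mono le_rfl (fun _ _ => le_rfl) fun b _ => hr b⟩,
        Shr.update (fun b _ p => Shr1.refl _) (f3 s hs).1, fun p hp b => by
          rcases eq_or_ne b c with rfl | hb
          · simp only [update_self, (f3 s hs).2.1 p hp, f2]
          · simp only [update_of_ne hb]⟩) (by simpa only [Md.zero, park, update_idem] using e1)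
    simpa only [f2, update_eq_self] using e2
  · rw [ev_update, gr_update, graph_pre]
    exact (Md.gph j hu s hs p hp _ _ fun h => ⟨((f3 1 one).1 p).abs_le h,
      (f4 p h).2.trans hε⟩).mono (sub_le_self _ Md.pos.le) (fun _ _ => le_rfl) fun b _ => hr b
  · rcases eq_or_ne b c with rfl | hb
    · simp only [update_self]
    · simp only [update_of_ne hb, Md.loc s hs p hp b]

end Crest.Agent.N228.G

end
end

-- ▼ part N228/G/Ind
section

/-! # Row 228, block G (helper16): the induction over colours and dimensions -/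

set_option autoImplicit false
set_option linter.unusedSectionVars false
open MeasureTheory Set Filter Topology Function Real
open scoped ContDiff
open Crest.Agent.N222 Crest.Agent.N222.Imm Crest.Agent.N228.J

noncomputable section

namespace Crest.Agent.N228.G

variable {d : ℕ} {ι : Type} [Fintype ι] [DecidableEq ι] {X : Type} [TopologicalSpace X]
  [MeasurableSpace X] {C : Type} [Fintype C] [DecidableEq C] {M : Imm d ι X} {A U : Set X}
  {η r : C → ℝ} {μ : ℝ} {φ0 φ : C → X → ℝ} {Q : (C → X → ℝ) → Prop}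

theorem inD_xt_xt {κ κ' : Type} [Fintype κ] [DecidableEq κ] [Fintype κ'] [DecidableEq κ']
    {y : κ → X → ℝ} {z : κ' → X → ℝ} (hy : ∀ i, M.Sm (y i)) (hz : ∀ i, M.Sm (z i))
    (h : InD ((M.xt y).xt z) A η r μ φ) : InD (M.xt (Sum.elim y z)) A η r μ φ := by
  obtain ⟨F, hF, h⟩ := h
  have l : ∀ p, Gr.LI ((M.xt y).xt z) (M.xt (Sum.elim y z)) id p := fun p =>
    ⟨(LinearIsometryEquiv.piLpCongrLeft 2 ℝ ℝ (Equiv.sumAssoc ι κ κ')).toLinearIsometry, 0,
      .of_forall fun q => ⟨continuousAt_id, by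
        rw [id, xt_x (Sum.rec hy hz), xt_x (M := M.xt y) hz, xt_x hy, add_zero]
        ext (b | i | i) <;> rfl⟩⟩
  refine ⟨F, hF, fun p hp => ?_⟩
  have e1 : ((M.xt y).xt z).pre.EF F p = (M.xt (Sum.elim y z)).pre.EF F p := (l p).EF hF
  have e2 : gr ((M.xt y).xt z) φ p = gr (M.xt (Sum.elim y z)) φ p := funext fun c =>
    (sq_eq_sq₀ (norm_nonneg _) (norm_nonneg _)).1 (by
      rw [← gam_self_eq, ← gam_self_eq]; exact (l p).gam (φ c) (φ c))
  exact e1 ▸ e2 ▸ h p hp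

theorem inD_res {r' : C → ℝ} (h : InD M A η r μ φ) (hr : r' ≤ r) : InD M A η r' μ φ :=
  let ⟨F, hF, h⟩ := h
  ⟨F, hF, fun p hp => (h p hp).mono le_rfl (fun _ _ => le_rfl) fun c _ => hr c⟩

/-- the constant path -/
theorem exPath_const (hφ : ∀ c, M.Sm (φ c)) (h : InD M A η r μ φ) (hQ : Q φ) :
    ExPath M A U η r μ φ φ Q :=
  ⟨Empty, _, _, fun _ _ _ => 0, fun _ => φ, ⟨fun i => i.elim,
    fun c => JC.of_sm rfl isOpen_univ (hφ c), fun _ _ => rfl, rfl,
    fun _ _ => inD_xt_zero h fun _ _ => rfl, fun _ _ => Shr.refl _,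
    fun _ _ _ _ => ⟨fun _ => rfl, fun _ => rfl⟩⟩, hQ⟩

/-- concatenation -/
theorem append {κ : Type} [Fintype κ] [DecidableEq κ] {y : ℝ → κ → X → ℝ} {χ : ℝ → C → X → ℝ}
    {r' : C → ℝ} (P : IsPath M A U η r' μ φ0 φ y χ) (hr : r ≤ r')
    (hp : ExPath (M.xt (y 1)) A U η r μ (χ 1) (χ 1) Q) : ExPath M A U η r μ φ0 φ Q := by
  obtain ⟨κ', _, _, z, ψ, P', hQ⟩ := hp
  have one : (1 : ℝ) ∈ Icc (0 : ℝ) 1 := ⟨zero_le_one, le_rfl⟩
  have c1 : Continuous fun s : ℝ => min (2 * s) 1 := by fun_prop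
  have c2 : Continuous fun s : ℝ => max (2 * s - 1) 0 := by fun_prop
  have sy : ∀ s i, M.Sm (y s i) := fun s i => (P.jy i).sm rfl s
  have sz : ∀ s i, M.Sm (z s i) := fun s i => (P'.jy i).sm (M := M) rfl s
  set ψ' : ℝ → C → X → ℝ := fun s c p =>
    χ (min (2 * s) 1) c p + ψ (max (2 * s - 1) 0) c p - χ 1 c p with hψ
  have e1 : ∀ s, 2 * s ≤ 1 → max (2 * s - 1) 0 = 0 ∧ ψ' s = χ (2 * s) := fun s hs => by
    have := max_eq_right (sub_nonpos.2 hs)
    exact ⟨this, by simp only [hψ, this, min_eq_left hs, P'.ψ0, add_sub_cancel_right]⟩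
  have e2 : ∀ s, 1 ≤ 2 * s → max (2 * s - 1) 0 = 2 * s - 1 ∧ ψ' s = ψ (2 * s - 1) := fun s hs => by
    have := max_eq_left (sub_nonneg.2 hs)
    exact ⟨this, by simp only [hψ, this, min_eq_right hs, add_sub_cancel_left]⟩
  have key : ∀ s ∈ Icc (0 : ℝ) 1,
      InD (M.xt (Sum.elim (y (min (2 * s) 1)) (z (max (2 * s - 1) 0)))) A η r μ (ψ' s) ∧
      Shr φ0 (ψ' s) ∧ ∀ p, p ∉ U →
        (∀ i, Sum.elim (y (min (2 * s) 1)) (z (max (2 * s - 1) 0)) i p = 0) ∧
        ∀ c, ψ' s c p = φ c p := fun s hs => by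
    rcases le_total (2 * s) 1 with h1 | h1
    · have m : 2 * s ∈ Icc (0 : ℝ) 1 := ⟨by linarith [hs.1], h1⟩
      rw [(e1 s h1).1, (e1 s h1).2, min_eq_left h1]
      exact ⟨inD_xt_xt (sy _) (sz _) (inD_xt_zero (inD_res (P.cls _ m) hr) P'.y0), P.shr _ m,
        fun p hp => ⟨Sum.rec (P.loc _ m p hp).1 fun i => P'.y0 i p, (P.loc _ m p hp).2⟩⟩
    · have m : 2 * s - 1 ∈ Icc (0 : ℝ) 1 := ⟨by linarith, by linarith [hs.2]⟩
      rw [(e2 s h1).1, (e2 s h1).2, min_eq_right h1]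
      exact ⟨inD_xt_xt (sy _) (sz _) (P'.cls _ m), (P.shr 1 one).trans (P'.shr _ m),
        fun p hp => ⟨Sum.rec (P.loc _ one p hp).1 (P'.loc _ m p hp).1, fun c =>
          ((P'.loc _ m p hp).2 c).trans ((P.loc _ one p hp).2 c)⟩⟩
  refine ⟨κ ⊕ κ', _, _, fun s => Sum.elim (y (min (2 * s) 1)) (z (max (2 * s - 1) 0)), ψ',
    ⟨Sum.rec (fun i => (P.jy i).reparam c1) fun i => (P'.jy i).reparam c2,
    fun c => (((P.jψ c).reparam c1).add ((P'.jψ c).reparam c2)).sub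
      ((P.jψ c).reparam continuous_const), fun i p => ?_, ?_, fun s hs => (key s hs).1,
    fun s hs => (key s hs).2.1, fun s hs => (key s hs).2.2⟩, ?_⟩
  · rw [(e1 0 (by norm_num)).1, mul_zero, min_eq_left zero_le_one]
    exact i.rec (fun i => P.y0 i p) fun i => P'.y0 i p
  · rw [(e1 0 (by norm_num)).2, mul_zero, P.ψ0]
  · rw [(e2 1 (by norm_num)).2, show (2 * 1 - 1 : ℝ) = 1 by norm_num]; exact hQ

/-- curves -/
theorem sstmt_one : SStmt 1 := by
  intro ι _ _ X _ _ _ _ _ _ C _ _ M A η r μ ℓ φ ctx hL hI hD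
  have hF : ∀ ψ : C → ℝ, ¬ Few 1 ψ := fun ψ h => by unfold Few at h; omega
  refine exPath_const ctx.sm (inD_res hD (le_add_of_nonneg_right (hL.1 1))) fun p hp => ?_
  obtain ⟨F, sF, h⟩ := hD
  obtain ⟨q, hq, hm⟩ := ctx.cl.isCompact.exists_isMaxOn ⟨p, hp⟩ sF.neg.continuous.continuousOn
  have h1 := lap_nonpos_of_isLocalMax sF.neg
    (hm.isLocalMax (mem_interior_iff_mem_nhds.1 ((hI q hq).resolve_left (hF _))))
  have h2 := ((h q hq).resolve_left (hF _)).pos fun c => add_nonneg (ctx.res c) (hL.1 1 c)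
  have h3 : M.pre.EF F q = M.pre.scal q - 2 * M.pre.lap F q - M.pre.gam F F q := by simp [Pre.EF]
  have h4 : M.pre.lap (fun p => -F p) q = -M.pre.lap F q := by
    have : ∀ a, M.pre.D a (fun p => -F p) = fun p => -M.pre.D a F p := fun a =>
      funext fun p => D_neg ..
    simp only [lap_apply, this, D_neg, Finset.sum_neg_distrib]
  exfalso
  linarith [ctx.mu, Bd.scal_one M q, gam_self_nonneg (M := M) F q]

/-- one colour after the other -/
theorem sstmt_succ {m : ℕ} (hm : 1 ≤ m) (hS : StepStmt m) : SStmt (m + 1) := by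
  intro ι _ _ X _ _ _ _ _ _ C _ _ M A η r μ ℓ φ ctx hL hI hD
  have key : ∀ (I : Finset C) (ι : Type) [Fintype ι] [DecidableEq ι] (M : Imm (m + 1) ι X)
      (φ : C → X → ℝ), Ctx M A η r μ φ → Led η ℓ A φ → Inn0 (m + 1) A φ →
      InD M A η (fun b => r b + if b ∈ I then ℓ (m + 1) b else 0) μ φ →
      (∀ p ∈ A, ∀ c ∉ I, |φ c p| ≤ π / 2 → Few (m + 1) (ev φ p)) →
      ExPath M A univ η r μ φ φ fun ψ => ∀ p ∈ A, Few (m + 1) (ev ψ p) := by
    have h0 : ∀ I : Finset C, r ≤ fun b => r b + if b ∈ I then ℓ (m + 1) b else 0 := fun I b =>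
      le_add_of_nonneg_right (ite_nonneg (hL.1 _ _) le_rfl)
    intro I
    induction I using Finset.induction_on with
    | empty =>
      intro ι _ _ M φ ctx _ _ hD h
      refine exPath_const ctx.sm (inD_res hD (h0 _)) fun p hp => ?_
      by_contra hn
      exact hn (few_of_none (by omega) fun c => lt_of_not_ge fun hc => hn (h p hp c (by simp) hc))
    | insert c I hc ih =>
      intro ι _ _ M φ ctx hL hI hD h
      obtain ⟨κ, _, _, y, ψ, P, hQ⟩ := hS ι X C M A η _ μ ℓ φ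
        ⟨ctx.inj, ctx.cl, ctx.eta, fun b => (ctx.res b).trans (h0 _ b), ctx.mu, ctx.sm⟩ c _
        (hI.inn c) (hL.led1 m c) (by simpa using ctx.res c) hD
      have e : (update (fun b => r b + if b ∈ insert c I then ℓ (m + 1) b else 0) c
          ((r c + if c ∈ insert c I then ℓ (m + 1) c else 0) - ℓ (m + 1) c)) =
          fun b => r b + if b ∈ I then ℓ (m + 1) b else 0 := by
        funext b
        rcases eq_or_ne b c with rfl | hb
        · simp [hc]
        · simp [hb]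
      rw [e] at P
      have one : (1 : ℝ) ∈ Icc (0 : ℝ) 1 := ⟨zero_le_one, le_rfl⟩
      have hs := P.shr 1 one
      refine append P (h0 I) (ih _ _ _ ⟨xt_inj ctx.inj _, ctx.cl, ctx.eta, ctx.res, ctx.mu,
        fun b => (P.jψ b).sm (M := M) rfl 1⟩ (hL.shr hs) (hI.shr hs) (P.cls 1 one)
        fun p hp b hb h1 => ?_)
      rcases eq_or_ne b c with rfl | e
      · exact hQ p hp h1
      · exact (h p hp b (by simp [e, hb]) ((hs b p).abs_le h1)).shr fun a => hs a p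
  exact key Finset.univ ι M φ ctx hL hI (by simp only [Finset.mem_univ, if_true]; exact hD)
    fun _ _ c hc => absurd (by simp) hc

/-- **G** from the two steps -/
theorem gstmt_of (hM : MidStmt) (hG : GraftStmt) (hF : FlipStmt)
    (h1 : ∀ m, CoreStmt m → StepStmt m) (h2 : ∀ m, CoreStmt m → LStepStmt m) : GStmt := by
  have key : ∀ m, 1 ≤ m → SStmt m := fun m hm => by
    induction m, hm using Nat.le_induction with
    | base => exact sstmt_one
    | succ m hm ih => exact sstmt_succ hm (h1 m (core hM hG hF m ih))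
  exact fun m hm => ⟨key m hm, h2 m (core hM hG hF m (key m hm))⟩

end Crest.Agent.N228.G

end
end

-- ▼ part N228/G/Step0
section

/-! # Row 228, block G (helper62): the profile on a state, the class on graphs -/

set_option autoImplicit false
set_option linter.unusedSectionVars false
open MeasureTheory Set Filter Topology Function Real
open scoped ContDiff
open Crest.Agent.N222 Crest.Agent.N222.Imm

noncomputable section

namespace Crest.Agent.N228.G

variable {m : ℕ} {ι : Type} [Fintype ι] [DecidableEq ι] {X : Type} [TopologicalSpace X]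
  {C : Type} [Fintype C] [DecidableEq C] {M : Imm (m + 1) ι X} {A : Set X} {η r : C → ℝ}
  {μ γ δ δ' : ℝ} {φ : C → X → ℝ} {F v : X → ℝ} {c : C} {k : ℝ → ℝ} {p : X}

/-- SPLIT on a state -/
theorem exists_spl [CompactSpace X] (hS : SplitStmt) (hC : Ctx M A η r μ φ) (hF : M.Sm F)
    (h : ∀ p ∈ A, Good (m + 1) η r (M.pre.EF F p - μ) (ev φ p) (gr M φ p)) (hc : η c ≤ r c) :
    ∃ γ a : ℝ, 0 < γ ∧ 0 < a ∧ a < π / 2 ∧ ∀ K : ℝ, ∃ k : ℝ → ℝ, ContDiff ℝ ∞ k ∧
      (∀ t, a ≤ t → k t = k a) ∧ K ≤ k a ∧ (∀ t, t ≤ -a → k t = k (-a)) ∧ k (-a) ≤ -K ∧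
      ∀ p ∈ A, Spl m η r c γ k (M.pre.EF F p - μ) (ev φ p) (gr M φ p) := by
  have h1 : Continuous fun p => (M.pre.EF F p - μ, ev φ p, gr M φ p) :=
    (hF.EF.continuous.sub continuous_const).prodMk
      ((continuous_pi fun b => (hC.sm b).continuous).prodMk
        (continuous_pi fun b => (hC.sm b).grad.continuous.norm))
  obtain ⟨γ, a, h2, h3, h4, H⟩ := hS C m η r c _ (hC.cl.isCompact.image h1) hC.res (hC.eta c) hc
    (forall_mem_image.2 fun p hp => ⟨norm_nonneg _, h p hp⟩)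
  refine ⟨γ, a, h2, h3, h4, fun K => ?_⟩
  obtain ⟨k, k1, k2, k3, k4, k5, k6⟩ := H K
  exact ⟨k, k1, k2, k3, k4, k5, fun p hp => k6 _ (mem_image_of_mem _ hp)⟩

variable [MeasurableSpace X]

theorem sq_grad_graph {d : ℕ} {M : Imm d ι X} (hv : M.Sm v) (f : X → ℝ) (p : X) :
    M.pre.dir (M.Xf v) f p ^ 2 + ‖(M.graph v hv).grad f p‖ ^ 2 = ‖M.grad f p‖ ^ 2 := by
  rw [← gam_self_eq, ← gam_self_eq, graph_pre, gS_gam]
  ring

theorem gr_graph_le {d : ℕ} {M : Imm d ι X} (hv : M.Sm v) (φ : C → X → ℝ) (p : X) (b : C) :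
    gr (M.graph v hv) φ p b ≤ gr M φ p b :=
  le_of_sq_le_sq (le_of_le_of_eq (le_add_of_nonneg_left (sq_nonneg _)) (sq_grad_graph hv (φ b) p))
    (norm_nonneg _)

/-- the class on a graph, with room for the colour `c` -/
theorem good_graph (h : Spl m η r c γ k (M.pre.EF F p - μ) (ev φ p) (gr M φ p)) (hγ : 0 ≤ γ)
    (hF : M.Sm F) (hφ : M.Sm (φ c)) (hk : ContDiff ℝ ∞ k) (hv : M.Sm v)
    (hl : Low M F (fun p => k (φ c p)) δ v) (hδ : δ + δ' ≤ γ) {a e : ℝ} (ha : |a - φ c p| ≤ γ)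
    (he : e ≤ gr (M.graph v hv) φ p c + γ) :
    Good (m + 1) η (update r c (r c - η c))
      ((M.graph v hv).pre.EF (fun q => F q + log (M.vv v q)) p - μ - δ') (update (ev φ p) c a)
      (update (gr (M.graph v hv) φ p) c e) := by
  refine h.gr |M.pre.dir (M.Xf v) (φ c) p| (gr (M.graph v hv) φ p c) _ _ _ (abs_nonneg _)
    (norm_nonneg _) ?_ ?_ (fun b => ?_) (fun b hb => ?_) (by rwa [update_self])
  · rw [sq_abs]; exact (sq_grad_graph hv (φ c) p).le
  · have h1 := hl p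
    have h2 : M.pre.dir (M.Xf v) (fun p => k (φ c p)) p =
        deriv k (φ c p) * M.pre.dir (M.Xf v) (φ c) p := by
      simp only [dir_apply, D_comp (hφ.diffAt p) (hk.differentiable (by simp) _).hasDerivAt,
        Finset.mul_sum]
      exact Finset.sum_congr rfl fun _ _ => by ring
    have h3 : 0 ≤ (M.gS v).gam (M.vv v) (M.vv v) p / M.vv v p ^ 2 :=
      div_nonneg (graph_pre hv ▸ gam_self_nonneg (M := M.graph v hv) _ p) (sq_nonneg _)
    rw [h2, abs_mul] at h1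
    rw [graph_pre, Nk.EF_graph hF hv]
    linarith
  · by_cases hb : b = c
    · subst hb; rwa [update_self]
    · rw [update_of_ne hb, sub_self, abs_zero]; exact hγ
  · rw [update_of_ne hb]; linarith [gr_graph_le hv φ p b]

/-- the class on a graph -/
theorem inD_graph (h : ∀ p ∈ A, Spl m η r c γ k (M.pre.EF F p - μ) (ev φ p) (gr M φ p))
    (hγ : 0 ≤ γ) (hF : M.Sm F) (hφ : M.Sm (φ c)) (hk : ContDiff ℝ ∞ k) (hv : M.Sm v)
    (hl : Low M F (fun p => k (φ c p)) δ v) (hδ : δ ≤ γ) {ρ : ℝ} (hρ : η c ≤ ρ) :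
    InD (M.graph v hv) A η (update r c (r c - ρ)) μ φ := by
  refine ⟨_, hF.add (hv.vv.log fun p => (M.vv_pos v p).ne'), fun p hp => ?_⟩
  have h1 := good_graph (h p hp) hγ hF hφ hk hv hl (δ' := 0) (by linarith) (a := ev φ p c)
    (by simpa using hγ) (le_add_of_nonneg_right hγ)
  rw [update_eq_self, update_eq_self, sub_zero] at h1
  refine h1.mono le_rfl (fun _ _ => le_rfl) fun b _ => ?_
  by_cases hb : b = c
  · subst hb; simp only [update_self]; linarith
  · simp only [update_of_ne hb, le_refl]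

end Crest.Agent.N228.G

end
end

-- ▼ part N228/G/Step
section

/-! # Row 228, block G (helper62): the step and the localised step -/

set_option autoImplicit false
set_option linter.unusedSectionVars false
open MeasureTheory Set Filter Topology Function Real
open scoped ContDiff
open Crest.Agent.N222 Crest.Agent.N222.Imm Crest.Agent.N228.J

noncomputable section

namespace Crest.Agent.N228.G

variable {d : ℕ} {ι κ : Type} [Fintype ι] [DecidableEq ι] [Fintype κ] [DecidableEq κ] {X : Type}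
  [TopologicalSpace X] [MeasurableSpace X] {C : Type} [Fintype C] [DecidableEq C] {M : Imm d ι X}
  {A : Set X} {η r : C → ℝ} {μ b : ℝ} {φ : C → X → ℝ} {u v : X → ℝ} {w : κ → X → ℝ}

/-- reindexing -/
def swapL (ι κ : Type) [Fintype ι] [Fintype κ] : E (Option ι ⊕ κ) →ₗᵢ[ℝ] E (ι ⊕ Option κ) where
  toFun z := WithLp.toLp 2 (Sum.elim (fun a => z (.inl (some a)))
    fun i => i.elim (z (.inl none)) fun i => z (.inr i))
  map_add' z z' := by ext (a | _ | i) <;> rfl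
  map_smul' t z := by ext (a | _ | i) <;> rfl
  norm_map' z := by
    rw [← sq_eq_sq₀ (norm_nonneg _) (norm_nonneg _)]
    simp only [EuclideanSpace.norm_sq_eq, Fintype.sum_sum_type, Fintype.sum_option]
    change _ + (‖z (.inl none)‖ ^ 2 + ∑ i, ‖z (.inr i)‖ ^ 2) = _
    exact (add_left_comm _ _ _).trans (add_assoc _ _ _).symm

theorem sm_elim (hv : M.Sm v) (hw : ∀ i, M.Sm (w i)) (i : Option κ) : M.Sm (i.elim v w) := by
  cases i
  exacts [hv, hw _]

/-- the height of a graph as one more coordinate -/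
theorem inD_gx (hu : M.Sm u) (hw : ∀ i, M.Sm (w i)) (hv : ∀ p, v p = u p + b)
    (h : InD ((M.graph u hu).xt w) A η r μ φ) :
    InD (M.xt fun i : Option κ => i.elim v w) A η r μ φ := by
  obtain ⟨F, hF, h⟩ := h
  have h1 : M.Sm v := (funext hv : v = _) ▸ hu.add (sm_const b)
  have l : ∀ p, Gr.LI ((M.graph u hu).xt w) (M.xt fun i : Option κ => i.elim v w) id p := fun p =>
    ⟨swapL ι κ, WithLp.toLp 2 (Sum.elim (fun _ => 0) fun i => i.elim b fun _ => 0),
      .of_forall fun q => ⟨continuousAt_id, by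
        rw [id, xt_x (sm_elim h1 hw), xt_x (M := M.graph u hu) hw]
        ext (a | _ | i)
        exacts [(add_zero _).symm, hv q, (add_zero _).symm]⟩⟩
  refine ⟨F, hF, fun p hp => ?_⟩
  have e1 : ((M.graph u hu).xt w).pre.EF F p = (M.xt fun i : Option κ => i.elim v w).pre.EF F p :=
    (l p).EF hF
  have e2 : gr ((M.graph u hu).xt w) φ p = gr (M.xt fun i : Option κ => i.elim v w) φ p :=
    funext fun c => (sq_eq_sq₀ (norm_nonneg _) (norm_nonneg _)).1 (by
      rw [← gam_self_eq, ← gam_self_eq]; exact (l p).gam (φ c) (φ c))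
  exact e1 ▸ e2 ▸ h p hp

theorem jc_sm {Λ : Type} [TopologicalSpace Λ] {f : Λ → X → ℝ} (h : JC M.atl univ f) (l : Λ) :
    M.Sm (f l) := (M.smOn_univ rfl).1 (h.smOn l)

/-- a path of graphs, followed by a path -/
theorem prepend_graph {φ0 : C → X → ℝ} {Q : (C → X → ℝ) → Prop} {v : ℝ → X → ℝ}
    (hj : JC M.atl univ v) (h0 : ∀ p, v 0 p = 0) (hu : M.Sm u) (h1 : ∀ p, v 1 p = u p + b)
    (h : ∀ s ∈ Icc (0 : ℝ) 1, InD (M.graph (v s) (jc_sm hj s)) A η r μ φ)
    (hp : ExPath (M.graph u hu) A univ η r μ φ0 φ Q) : ExPath M A univ η r μ φ0 φ Q := by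
  obtain ⟨κ, _, _, y, ψ, P, hQ⟩ := hp
  have c1 : Continuous fun s : ℝ => min (2 * s) 1 := by fun_prop
  have c2 : Continuous fun s : ℝ => max (2 * s - 1) 0 := by fun_prop
  have hy : ∀ s i, M.Sm (y s i) := fun s i => jc_sm (M := M) (P.jy i) s
  have m2 : ∀ s ∈ Icc (0 : ℝ) 1, max (2 * s - 1) 0 ∈ Icc (0 : ℝ) 1 := fun s hs =>
    ⟨le_max_right _ _, max_le (by linarith [hs.2]) zero_le_one⟩
  refine ⟨Option κ, _, _, fun s i => i.elim (v (min (2 * s) 1)) (y (max (2 * s - 1) 0)),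
    fun s => ψ (max (2 * s - 1) 0), ⟨fun i => ?_, fun c => (P.jψ c).reparam c2, fun i p => ?_, ?_,
    fun s hs => ?_, fun s hs => P.shr _ (m2 s hs), fun _ _ p hp => absurd (mem_univ p) hp⟩, ?_⟩
  · cases i
    exacts [hj.reparam c1, (P.jy _).reparam c2]
  · cases i
    · simpa using h0 p
    · simpa using P.y0 _ p
  · simpa using P.ψ0
  · rcases le_total (2 * s) 1 with h2 | h2
    · simp only [max_eq_right (sub_nonpos.2 h2), min_eq_left h2, P.ψ0]
      exact inD_gx (jc_sm hj _) (hy 0) (b := 0) (fun p => (add_zero _).symm)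
        (inD_xt_zero (h _ ⟨by linarith [hs.1], h2⟩) P.y0)
    · simp only [min_eq_right h2]
      exact inD_gx hu (hy _) h1 (P.cls _ (m2 s hs))
  · simpa only [show max (2 * 1 - 1 : ℝ) 0 = 1 by norm_num] using hQ

theorem step (hS : SplitStmt) (hSol : SolStmt) (m : ℕ) (hC : CoreStmt m) : StepStmt m := by
  intro ι _ _ X _ _ _ _ _ _ C _ _ M A η r μ ℓ φ ctx c ρ hI hL hρ ⟨F, hF, hD⟩
  obtain ⟨γ, a, hγ, a0, a1, H⟩ := exists_spl hS ctx hF hD (hL.2.1.trans hρ)
  obtain ⟨K, H'⟩ := hSol _ ι X M F ctx.inj hF (φ c) a (γ / 4) (ctx.sm c) a0 a1 (by positivity)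
  obtain ⟨k, k1, k2, k3, k4, k5, k6⟩ := H K
  obtain ⟨Λ, 𝒰, u, τ, s, hN, hv⟩ := H' k k1 (fun t ht => k2 t ht ▸ k3) fun t ht => k4 t ht ▸ k5
  obtain ⟨j, hu, hP⟩ := hC ι X C M A η r μ ℓ φ ctx univ c ρ F γ k Λ 𝒰 u τ s hI hL hρ
    ⟨hF, hγ, k1, k6, hN⟩ isOpen_univ fun _ _ => mem_univ _
  obtain ⟨v, b, v1, v2, v3, v4⟩ := hv j
  exact prepend_graph v1 v2 hu v3 (fun t ht => inD_graph k6 hγ.le hF (ctx.sm c) k1 _ (v4 t ht)
    (by linarith) hL.2.1) hP

theorem lstep (hS : SplitStmt) (hLoc : LocStmt) (m : ℕ) (hC : CoreStmt m) : LStepStmt m := by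
  intro ι _ _ X _ _ _ _ _ _ C _ _ M A η r μ ℓ φ ctx U c ρ hU hcU hI hL hρ ⟨F, hF, hD⟩
  obtain ⟨γ, a, hγ, a0, a1, H⟩ := exists_spl hS ctx hF hD (hL.2.1.trans hρ)
  obtain ⟨K, H'⟩ := hLoc _ ι X M F ctx.inj hF (φ c) a (γ / 4) (ctx.sm c) a0 a1 (by positivity)
  obtain ⟨k, k1, k2, k3, k4, k5, k6⟩ := H K
  obtain ⟨Λ, 𝒰, u, τ, s, hN, hv⟩ := H' k k1 k2 k3 k4 k5
  obtain ⟨j, hu, κ, _, _, y, ψ, P, hQ⟩ := hC ι X C M A η r μ ℓ φ ctx U c ρ F γ k Λ 𝒰 u τ s hI hL hρ
    ⟨hF, hγ, k1, k6, hN⟩ hU hcU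
  obtain ⟨b, b', hb⟩ := hv j
  have m1 : (1 : ℝ) ∈ Icc (0 : ℝ) 1 := ⟨zero_le_one, le_rfl⟩
  have hy : ∀ i, M.Sm (y 1 i) := fun i => jc_sm (M := M) (P.jy i) 1
  refine ⟨Option κ, _, _, fun i => i.elim (u j) (y 1), ψ 1, fun i => i.elim b fun _ => 0,
    fun i => i.elim b' fun _ => 0, sm_elim hu hy, fun c' => jc_sm (M := M) (P.jψ c') 1,
    inD_gx hu hy (b := 0) (fun p => (add_zero _).symm) (P.cls 1 m1), P.shr 1 m1, fun p hp => ?_, hQ⟩
  have h1 := lt_abs.1 (not_le.1 fun h => hp (hcU p h))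
  refine ⟨(P.loc 1 m1 p hp).2, fun h i => ?_, fun h i => ?_⟩ <;> cases i
  · exact (hb p).1 (h1.elim le_of_lt fun _ => by linarith [pi_pos])
  · exact (P.loc 1 m1 p hp).1 _
  · exact (hb p).2 (h1.elim (fun _ => by linarith [pi_pos]) fun _ => by linarith)
  · exact (P.loc 1 m1 p hp).1 _

end Crest.Agent.N228.G

end
end

-- ▼ part N228/G/Final

/-! # Row 228, block G (helper16): assembly -/

set_option autoImplicit false

namespace Crest.Agent.N228.G

theorem gstmt_of' (hP : ProjStmt) (hG : GraftStmt) : GStmt :=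
  gstmt_of (mid gen boost hP) hG flip (step split sol) (lstep split loc)

end Crest.Agent.N228.G
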